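import Crest.Agent.R096.Gn1_296
import Crest.Agent.R096.Glu1_422
import Crest.Agent.R096.Coh2_184

/-!
# X212 / T layer, SURF (helper12): compact PL surfaces in a finite dimensional normed space

`Srf S dS` : every point of the compact set `S` has a PL disc neighbourhood.
`SC` : a finite complex of PL balls with the combinatorics of a surface.
-/

set_option autoImplicit false

open Set Metric Topology

namespace Crest.Agent.X212.Srf12

open Crest.Agent.R096 Crest.Agent.R096.Ce_537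

variable {E : Type*} [NormedAddCommGroup E] [NormedSpace ℝ E]

/-- compact polyhedron (for `E = Fin 3 → ℝ` this is `Gp_702.Poly`) -/
def Poly (A : Set E) : Prop := ∃ 𝒞 : Set (Set E), 𝒞.Finite ∧ (∀ C ∈ 𝒞, Pl.VP C) ∧ ⋃₀ 𝒞 = A

/-- PL circle -/
def Circ (Γ : Set E) : Prop := Nonempty (PLEquiv (sph 2) Γ)

/-- PL two-sphere -/
def Sph (S : Set E) : Prop := Nonempty (PLEquiv (sph 3) S)

/-- compact PL surface `S` with boundary `dS` -/
structure Srf (S dS : Set E) : Prop where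
  cpt : IsCompact S
  sub : dS ⊆ S
  loc : ∀ x ∈ S, ∃ D Γ, IsBall 2 D Γ ∧ D ⊆ S ∧ D ∈ 𝓝[S] x ∧ (x ∈ dS ↔ x ∈ Γ)

/-- `H¹(S; ℤ/2) = 0`, in the form of `alexander_poly` -/
def H1 {X : Type*} [TopologicalSpace X] (S : Set X) : Prop :=
  ∀ n, Coh_184.TrivAll (Fin n) (ZMod 2) S

/-- `H¹(S; ℤ/2) → H¹(A; ℤ/2)` is injective -/
def H1Rel {X : Type*} [TopologicalSpace X] (S A : Set X) : Prop :=
  ∀ (n : ℕ) (C : Fin n → Set X) (d : Fin n → Fin n → X → ZMod 2), Coh_184.Coc C d S →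
    Coh_184.Triv C d A → Coh_184.Triv C d S

/-- `A` is a union of cells -/
def Sub {X I : Type*} [PartialOrder I] (K : I → Set X) (A : Set X) : Prop :=
  ∀ i x, Opn K i x → x ∈ A → K i ⊆ A

/-- a complex of PL balls with the combinatorics of a surface with boundary `dS` -/
structure SC (S dS : Set E) (I : Type*) [PartialOrder I] (dim : I → ℕ) (K : I → Set E) :
    Prop where
  cx : Cplx S I dim K
  le2 : ∀ i, dim i ≤ 2
  pure : ∀ i, ∃ f, dim f = 2 ∧ i ≤ f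
  two : ∀ e f₁ f₂ f₃, dim e = 1 → e < f₁ → e < f₂ → e < f₃ → f₁ = f₂ ∨ f₁ = f₃ ∨ f₂ = f₃
  bd : ∀ x, x ∈ dS ↔ ∃ e f, dim e = 1 ∧ x ∈ K e ∧ e < f ∧ ∀ f', e < f' → f' = f
  link : ∀ (v : I) (c : I → Prop), dim v = 0 →
    (∀ e f f', v < e → e < f → e < f' → (c f ↔ c f')) →
    ∀ f f', dim f = 2 → dim f' = 2 → v < f → v < f' → (c f ↔ c f')

/-- a PL annulus, parametrised by `[-1,1] × ℝ` with period one in the second variable -/
structure Ann (S : Set E) (g : (Fin 2 → ℝ) → E) : Prop where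
  pl : ∀ R : ℝ, PLOn g {y | |y 0| ≤ 1 ∧ |y 1| ≤ R}
  img : g '' {y | |y 0| ≤ 1} = S
  fib : ∀ y y', |y 0| ≤ 1 → |y' 0| ≤ 1 → (g y = g y' ↔ y 0 = y' 0 ∧ ∃ m : ℤ, y 1 - y' 1 = m)

/-- a PL circle, parametrised by `ℝ` with period one -/
structure Loop (Γ : Set E) (γ : ℝ → E) : Prop where
  pl : ∀ R : ℝ, PLOn γ (Icc (-R) R)
  img : range γ = Γ
  fib : ∀ s t, γ s = γ t ↔ ∃ m : ℤ, s - t = m

/-- a PL torus, parametrised by the plane with periods `ℤ²` -/
structure Tor (S : Set E) (g : (Fin 2 → ℝ) → E) : Prop where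
  pl : ∀ R : ℝ, PLOn g (closedBall 0 R)
  img : range g = S
  fib : ∀ y y', g y = g y' ↔ ∀ i, ∃ m : ℤ, y i - y' i = m

end Crest.Agent.X212.Srf12
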