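import Crest.Agent.X212.Srf12.Tri

/-!
# X212 / SURF (helper12): calculus of compact polyhedra; complexes adapted to PL maps
-/

set_option autoImplicit false

open Set Metric Topology Module Filter

namespace Crest.Agent.X212.Srf12

open Crest.Agent.R096 Crest.Agent.R096.Ce_537 Crest.Agent.R096.Msh_715 Crest.Agent.R096.Xp_537

universe u

variable {E : Type u} [NormedAddCommGroup E] [NormedSpace ℝ E]
  {F : Type*} [NormedAddCommGroup F] [NormedSpace ℝ F]

theorem poly_vp {C : Set E} (h : Pl.VP C) : Poly C :=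
  ⟨{C}, finite_singleton _, by simpa using h, by simp⟩

theorem poly_empty : Poly (∅ : Set E) := ⟨∅, finite_empty, by simp, by simp⟩

theorem poly_singleton (x : E) : Poly ({x} : Set E) :=
  poly_vp ⟨{x}, finite_singleton _, by simp⟩

theorem Poly.union {A B : Set E} (hA : Poly A) (hB : Poly B) : Poly (A ∪ B) := by
  obtain ⟨𝒜, a1, a2, rfl⟩ := hA
  obtain ⟨ℬ, b1, b2, rfl⟩ := hB
  exact ⟨𝒜 ∪ ℬ, a1.union b1, fun C hC => hC.elim (a2 C) (b2 C), sUnion_union _ _⟩

theorem poly_biUnion {ι : Type*} {s : Set ι} (hs : s.Finite) {A : ι → Set E}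
    (h : ∀ i ∈ s, Poly (A i)) : Poly (⋃ i ∈ s, A i) := by
  induction s, hs using Set.Finite.induction_on with
  | empty => simpa using poly_empty
  | @insert a s ha hs ih =>
    rw [biUnion_insert]
    exact (h a (mem_insert _ _)).union (ih fun i hi => h i (mem_insert_of_mem _ hi))

theorem poly_iUnion {ι : Type*} [Finite ι] {A : ι → Set E} (h : ∀ i, Poly (A i)) :
    Poly (⋃ i, A i) := by
  simpa using poly_biUnion (s := univ) finite_univ fun i _ => h i

theorem Poly.isClosed {A : Set E} (h : Poly A) : IsClosed A := h.isCompact.isClosed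

theorem Poly.finConv {A : Set E} (h : Poly A) : Cx_609.FinConv A := by
  obtain ⟨𝒜, a1, a2, rfl⟩ := h
  exact ⟨𝒜, a1, fun C hC => (a2 C hC).convex, rfl⟩

theorem vp_image {C : Set E} (h : Pl.VP C) (g : E →ᵃ[ℝ] F) : Pl.VP (g '' C) := by
  obtain ⟨s, hs, rfl⟩ := h
  exact ⟨g '' s, hs.image _, g.image_convexHull s⟩

section Sub

variable {S : Set E} {I : Type*} [PartialOrder I] {dim : I → ℕ} {K : I → Set E}

theorem Sub.eq_biUnion (C : Cplx S I dim K) {A : Set E} (h : Sub K A) :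
    A ∩ S = ⋃ i ∈ {i | K i ⊆ A}, K i := by
  ext x
  constructor
  · rintro ⟨hA, hS⟩
    obtain ⟨m, hm⟩ := exists_carrier C hS
    exact mem_biUnion (show m ∈ {i | K i ⊆ A} from h m x hm hA) hm.1
  · intro hx
    obtain ⟨i, hi, hx⟩ := mem_iUnion₂.1 hx
    exact ⟨hi hx, C.sub i hx⟩

theorem sub_cell (C : Cplx S I dim K) (i : I) : Sub K (K i) :=
  fun _ _ hx hi => C.subset (C.opn_le hx hi)

omit [NormedAddCommGroup E] [NormedSpace ℝ E] in
theorem Sub.union {A B : Set E} (hA : Sub K A) (hB : Sub K B) : Sub K (A ∪ B) :=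
  fun i x hx h => h.elim (fun h => (hA i x hx h).trans subset_union_left)
    fun h => (hB i x hx h).trans subset_union_right

omit [NormedAddCommGroup E] [NormedSpace ℝ E] in
theorem Sub.inter {A B : Set E} (hA : Sub K A) (hB : Sub K B) : Sub K (A ∩ B) :=
  fun i x hx h => subset_inter (hA i x hx h.1) (hB i x hx h.2)

omit [NormedAddCommGroup E] [NormedSpace ℝ E] in
theorem sub_biUnion {ι : Type*} {s : Set ι} {A : ι → Set E} (h : ∀ i ∈ s, Sub K (A i)) :
    Sub K (⋃ i ∈ s, A i) := by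
  intro i x hx hA
  obtain ⟨j, hj, hA⟩ := mem_iUnion₂.1 hA
  exact (h j hj i x hx hA).trans (subset_biUnion_of_mem hj)

theorem sub_cells (C : Cplx S I dim K) (s : Set I) : Sub K (⋃ i ∈ s, K i) :=
  sub_biUnion fun i _ => sub_cell C i

end Sub

variable [FiniteDimensional ℝ E]

omit [FiniteDimensional ℝ E] in
theorem Tri.poly_sub {S : Set E} {Q : Type*} [PartialOrder Q] [Finite Q] {C : CC S Q}
    (h : Tri C) {A : Set E} (hA : Sub C.cell A) : Poly (A ∩ S) := by
  rw [hA.eq_biUnion h.cx]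
  exact poly_biUnion (toFinite _) fun i _ => poly_vp (h.vp i)

theorem Poly.inter {A B : Set E} (hA : Poly A) (hB : Poly B) : Poly (A ∩ B) := by
  obtain ⟨Q, _, _, C, hC, hs, -⟩ := exists_tri hB (finite_singleton A) (by simpa using hA) ∅
  exact hC.poly_sub (hs A rfl)

/-- the closure of a difference of polyhedra -/
theorem Poly.closure_diff {A B : Set E} (hA : Poly A) (hB : Poly B) : Poly (closure (A \ B)) := by
  obtain ⟨Q, _, _, C, hC, hs, -⟩ := exists_tri hA (finite_singleton B) (by simpa using hB) ∅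
  have : closure (A \ B) = ⋃ q ∈ {q | ¬ C.cell q ⊆ B}, C.cell q := by
    refine (closure_minimal ?_
      ((toFinite _).isClosed_biUnion fun i _ => hC.cx.isClosed i)).antisymm ?_
    · rintro x ⟨hx, hxB⟩
      obtain ⟨q, hq⟩ := hC.cx.cover x hx
      exact mem_biUnion (show q ∈ {q | ¬ C.cell q ⊆ B} from fun h => hxB (h hq)) hq
    · intro x hx
      obtain ⟨q, hq, hx⟩ := mem_iUnion₂.1 hx
      rw [mem_closure_iff_nhds]
      intro O hO
      obtain ⟨y, hyO, hy⟩ := opn_near hC.cx hx hO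
      exact ⟨y, hyO, hC.cx.sub q hy.1, fun h => hq (hs B rfl q y hy h)⟩
  rw [this]
  exact poly_biUnion (toFinite _) fun i _ => poly_vp (hC.vp i)

variable [FiniteDimensional ℝ F]

/-- the inequalities which make a PL map affine on the cells -/
theorem exists_ineq {f : E → F} {B : Set E} (hf : PLOn f B) :
    ∃ L : Finset (Ineq E), ∀ {S : Set E} {Q : Type u} [PartialOrder Q] (C : CC S Q), Tri C →
      (∀ h ∈ L, ∀ q x y, Opn C.cell q x → y ∈ C.cell q →
        (h.1 x ≤ h.2 → h.1 y ≤ h.2) ∧ (h.2 ≤ h.1 x → h.2 ≤ h.1 y)) →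
      ∀ q, C.cell q ⊆ B → ∃ g : E →ᵃ[ℝ] F, EqOn f g (C.cell q) := by
  classical
  obtain ⟨hc, G, hG⟩ := hf
  let b := Module.finBasis ℝ F
  let ι : (E →ᵃ[ℝ] F) × (E →ᵃ[ℝ] F) × Fin (finrank ℝ F) → Ineq E := fun p =>
    (LinearMap.toContinuousLinearMap ((b.coord p.2.2).comp (p.1 - p.2.1).linear),
      -(b.coord p.2.2 ((p.1 - p.2.1) 0)))
  have hι : ∀ g g' j x, (ι (g, g', j)).1 x - (ι (g, g', j)).2 = b.coord j (g x - g' x) := by
    intro g g' j x
    have h1 : (g - g') x = (g - g').linear x + (g - g') 0 := by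
      simpa using (g - g').map_vadd 0 x
    have h2 : g x - g' x = (g - g') x := rfl
    rw [h2, h1, map_add]
    simp [ι]
    ring
  refine ⟨(G ×ˢ G ×ˢ Finset.univ).image ι, fun {S Q} _ C hC hL q hq => ?_⟩
  obtain ⟨g, hg, he⟩ := Cx_609.selection_const (C := {x | Opn C.cell q x})
    (hC.cvx q).isPreconnected (hc.mono fun x hx => hq hx.1)
    (A := (fun g : E →ᵃ[ℝ] F => (g : E → F)) '' (G : Set _)) (G.finite_toSet.image _)
    (by rintro _ ⟨g, -, rfl⟩; exact g.continuous_of_finiteDimensional.continuousOn)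
    (fun x hx => by
      obtain ⟨g, hg, e⟩ := hG x (hq hx.1)
      exact ⟨g, ⟨g, hg, rfl⟩, e⟩)
    (by
      rintro _ ⟨g, hg, rfl⟩ _ ⟨g', hg', rfl⟩ ⟨x, hx, e⟩ y hy
      rw [← sub_eq_zero]
      refine b.ext_elem fun j => ?_
      have h1 := hL (ι (g, g', j)) (Finset.mem_image_of_mem _ (by simp; exact ⟨hg, hg'⟩))
        q x y hx hy.1
      have h2 := hι g g' j x
      have h3 := hι g g' j y
      have e' : g x = g' x := e
      rw [e', sub_self, map_zero] at h2
      have h4 := h1.1 (by linarith)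
      have h5 := h1.2 (by linarith)
      have h6 : b.coord j (g y - g' y) = 0 := by linarith
      simpa using h6)
    (exists_opn_pt hC.cx q)
  obtain ⟨g, -, rfl⟩ := hg
  refine ⟨g, fun x hx => ?_⟩
  have h1 : x ∈ closure {x | Opn C.cell q x} := by
    rw [mem_closure_iff_nhds]
    intro O hO
    obtain ⟨y, hyO, hy⟩ := opn_near hC.cx hx hO
    exact ⟨y, hyO, hy⟩
  exact Cx_609.PLOn.closure_inter hc (fun x hx => hq hx.1) he ⟨h1, hq hx⟩

/-- **TRI with a PL map** -/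
theorem exists_tri_pl {S : Set E} (hS : Poly S) {𝒜 : Set (Set E)} (hf : 𝒜.Finite)
    (h𝒜 : ∀ B ∈ 𝒜, Poly B) {f : E → F} {B : Set E} (hB : PLOn f B) :
    ∃ (Q : Type u) (_ : PartialOrder Q) (_ : Finite Q) (C : CC S Q), Tri C ∧
      (∀ B ∈ 𝒜, Sub C.cell B) ∧ ∀ q, C.cell q ⊆ B → ∃ g : E →ᵃ[ℝ] F, EqOn f g (C.cell q) := by
  obtain ⟨L, hL⟩ := exists_ineq hB
  obtain ⟨Q, _, _, C, hC, hs, h⟩ := exists_tri hS hf h𝒜 L
  exact ⟨Q, inferInstance, inferInstance, C, hC, hs, hL C hC h⟩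

theorem Poly.pieces {A : Set E} (hA : Poly A) {f : E → F} (hf : PLOn f A) :
    ∃ 𝒞 : Set (Set E), 𝒞.Finite ∧ (∀ C ∈ 𝒞, Pl.VP C ∧ ∃ g : E →ᵃ[ℝ] F, EqOn f g C) ∧
      ⋃₀ 𝒞 = A := by
  obtain ⟨Q, _, _, C, hC, -, h⟩ := exists_tri_pl hA finite_empty (by simp) hf
  refine ⟨range C.cell, finite_range _, ?_, ?_⟩
  · rintro _ ⟨q, rfl⟩
    exact ⟨hC.vp q, h q (C.sub q)⟩
  · rw [sUnion_range]
    exact (iUnion_subset C.sub).antisymm fun x hx => mem_iUnion.2 (C.cover x hx)

theorem Poly.image {A : Set E} (hA : Poly A) {f : E → F} (hf : PLOn f A) : Poly (f '' A) := by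
  obtain ⟨𝒞, h1, h2, rfl⟩ := hA.pieces hf
  rw [sUnion_eq_biUnion, image_iUnion₂]
  refine poly_biUnion h1 fun C hC => ?_
  obtain ⟨hv, g, hg⟩ := h2 C hC
  rw [hg.image_eq]
  exact poly_vp (vp_image hv g)

theorem Poly.map {A : Set E} {B : Set F} (hA : Poly A) (e : PLEquiv A B) : Poly B :=
  e.image_eq ▸ hA.image e.pf

/-- preimages of polyhedra -/
theorem Poly.preimage {A : Set E} (hA : Poly A) {f : E → F} (hf : PLOn f A) {B : Set F}
    (hB : Poly B) : Poly (A ∩ f ⁻¹' B) := by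
  classical
  obtain ⟨𝒞, h1, h2, rfl⟩ := hA.pieces hf
  obtain ⟨ℬ, b1, b2, rfl⟩ := hB
  have : ⋃₀ 𝒞 ∩ f ⁻¹' ⋃₀ ℬ = ⋃ C ∈ 𝒞, ⋃ D ∈ ℬ, C ∩ f ⁻¹' D := by
    ext x; simp only [mem_inter_iff, mem_sUnion, mem_preimage, mem_iUnion, exists_prop]
    constructor
    · rintro ⟨⟨C, hC, hx⟩, D, hD, hy⟩; exact ⟨C, hC, D, hD, hx, hy⟩
    · rintro ⟨C, hC, D, hD, hx, hy⟩; exact ⟨⟨C, hC, hx⟩, D, hD, hy⟩
  rw [this]
  refine poly_biUnion h1 fun C hC => poly_biUnion b1 fun D hD => poly_vp ?_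
  obtain ⟨hv, g, hg⟩ := h2 C hC
  obtain ⟨H, rfl⟩ := vp_hrep (b2 D hD)
  have key : ∀ H : Finset (Ineq F), Pl.VP (C ∩ g ⁻¹' P H) := by
    intro H
    induction H using Finset.induction_on with
    | empty => simpa [P] using hv
    | insert h H _ ih =>
      have h3 := ih.inter_nonneg
        (AffineMap.const ℝ E h.2 - (h.1.toLinearMap.toAffineMap).comp g)
      convert h3 using 1
      ext x
      simp [P, and_comm, and_left_comm]
  convert key H using 1
  ext x
  exact and_congr_right fun hx => by rw [mem_preimage, mem_preimage, hg hx]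

omit [FiniteDimensional ℝ E] [FiniteDimensional ℝ F] in
theorem poly_cube (k : ℕ) : Poly (cube k) := poly_vp (Cb_609.vp_cube k)

theorem poly_ball {k : ℕ} {K dK : Set E} (h : IsBall k K dK) : Poly K := by
  obtain ⟨a, -⟩ := h
  exact (poly_cube k).map a

omit [FiniteDimensional ℝ E] [FiniteDimensional ℝ F] in
theorem poly_sph (k : ℕ) : Poly (sph k) := by
  have h := (poly_cube k).preimage ((Cb_609.plMap_norm k).plOn _) (poly_singleton (1 : ℝ))
  convert h using 1
  ext x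
  simp only [sph, mem_sphere_iff_norm, sub_zero, cube, mem_inter_iff, mem_closedBall_zero_iff,
    mem_preimage, mem_singleton_iff]
  exact ⟨fun h => ⟨h.le, h⟩, fun h => h.2⟩

theorem poly_rim {k : ℕ} {K dK : Set E} (h : IsBall k K dK) : Poly dK := by
  obtain ⟨a, rfl⟩ := h
  exact (poly_sph k).image (a.pf.mono sph_subset_cube)

theorem Circ.poly {Γ : Set E} (h : Circ Γ) : Poly Γ := h.elim fun e => (poly_sph 2).map e

theorem Sph.poly {S : Set E} (h : Sph S) : Poly S := h.elim fun e => (poly_sph 3).map e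

omit [FiniteDimensional ℝ E] in
/-- a compact set which is locally a polyhedron is a polyhedron -/
theorem poly_of_loc {S : Set E} (hc : IsCompact S)
    (h : ∀ x ∈ S, ∃ D, Poly D ∧ D ⊆ S ∧ D ∈ 𝓝[S] x) : Poly S := by
  choose! D h1 h2 h3 using h
  obtain ⟨t, ht, hcov⟩ := hc.elim_nhdsWithin_subcover D h3
  have : S = ⋃ x ∈ (t : Set E), D x :=
    Subset.antisymm hcov (iUnion₂_subset fun x hx => h2 x (ht x hx))
  rw [this]
  exact poly_biUnion t.finite_toSet fun x hx => h1 x (ht x hx)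

theorem Srf.poly {S dS : Set E} (h : Srf S dS) : Poly S :=
  poly_of_loc h.cpt fun x hx => by
    obtain ⟨D, Γ, hD, hs, hn, -⟩ := h.loc x hx
    exact ⟨D, poly_ball hD, hs, hn⟩

/-- a surface has a surface complex of convex cells containing given polyhedra -/
theorem Srf.exists_sc {S dS : Set E} (h : Srf S dS) {𝒜 : Set (Set E)} (hf : 𝒜.Finite)
    (h𝒜 : ∀ B ∈ 𝒜, Poly B) : ∃ (Q : Type u) (_ : PartialOrder Q) (_ : Finite Q) (C : CC S Q),
      Tri C ∧ SC S dS Q C.dim C.cell ∧ ∀ B ∈ 𝒜, Sub C.cell B := by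
  obtain ⟨Q, _, _, C, hC, hs, -⟩ := exists_tri h.poly hf h𝒜 ∅
  exact ⟨Q, inferInstance, inferInstance, C, hC, h.sc hC.cx, hs⟩

end Crest.Agent.X212.Srf12
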