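import Crest.Agent.X212.Srf12.Iod

/-!
# X212 / SURF (helper12): every finite complex of balls on a surface is a surface complex
-/

set_option autoImplicit false

open Set Metric Topology Module

namespace Crest.Agent.X212.Srf12

open Crest.Agent.R096 Crest.Agent.R096.Ce_537 Crest.Agent.R096.Cb_609 Crest.Agent.R096.Pl

variable {E : Type*} [NormedAddCommGroup E] [NormedSpace ℝ E]
  {S dS : Set E} {I : Type*} [PartialOrder I] {dim : I → ℕ} {K : I → Set E}

omit [NormedAddCommGroup E] [NormedSpace ℝ E] in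
theorem opn_iff (i : I) (x : E) : Opn K i x ↔ x ∈ K i \ ⋃ j ∈ {j | j < i}, K j := by
  simp [Opn]

theorem exists_opn_pt (C : Cplx S I dim K) (i : I) : ∃ x, Opn K i x := by
  obtain ⟨x, hx⟩ := (C.isBall i).nonempty_diff
  exact ⟨x, (opn_iff i x).2 hx⟩

theorem exists_carrier (C : Cplx S I dim K) {x : E} (hx : x ∈ S) : ∃ m, Opn K m x := by
  obtain ⟨i, hi⟩ := C.cover x hx
  obtain ⟨m, -, hm⟩ := C.exists_opn hi
  exact ⟨m, hm⟩

theorem le_of_subset (C : Cplx S I dim K) {i j : I} (h : K i ⊆ K j) : i ≤ j := by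
  obtain ⟨x, hx⟩ := exists_opn_pt C i
  exact C.opn_le hx (h hx.1)

theorem dim_le (C : Cplx S I dim K) {i j : I} (h : i ≤ j) : dim i ≤ dim j := by
  rcases h.eq_or_lt with rfl | h
  · exact le_rfl
  · exact (C.mono _ _ h).le

theorem eq_of_le (C : Cplx S I dim K) {i j : I} (h : i ≤ j) (hd : dim j ≤ dim i) : i = j := by
  rcases h.eq_or_lt with h | h
  · exact h
  · have := C.mono _ _ h; omega

theorem lt_of_le (h : ∀ i j : I, j < i → dim j < dim i) {i j : I} (hij : i ≤ j)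
    (hd : dim i ≠ dim j) : i < j := by
  have := h
  exact lt_of_le_of_ne hij fun e => hd (by rw [e])

/-- open cells are dense -/
theorem opn_near (C : Cplx S I dim K) {i : I} {x : E} (hx : x ∈ K i) {O : Set E}
    (hO : O ∈ 𝓝 x) : ∃ y ∈ O, Opn K i y := by
  rw [← (C.isBall i).closure_diff, mem_closure_iff_nhds] at hx
  obtain ⟨y, hy, hy'⟩ := hx O hO
  exact ⟨y, hy, (opn_iff i y).2 hy'⟩

/-- near `x` only the cells through `x` are present -/
theorem exists_near [Finite I] (C : Cplx S I dim K) (x : E) :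
    ∃ O, IsOpen O ∧ x ∈ O ∧ ∀ i, ∀ y ∈ O, y ∈ K i → x ∈ K i := by
  refine ⟨(⋃ i ∈ {i | x ∉ K i}, K i)ᶜ,
    ((toFinite _).isClosed_biUnion fun i _ => C.isClosed i).isOpen_compl, ?_, ?_⟩
  · simp
  · intro i y hy hyi
    by_contra h
    exact hy (mem_biUnion (show i ∈ {i | x ∉ K i} from h) hyi)

theorem vertex_eq (C : Cplx S I dim K) {v : I} (hv : dim v = 0) : ∃ p, K v = {p} := by
  have h := C.isBall v
  rw [hv] at h
  obtain ⟨p, hp, -⟩ := Glu_422.ball_zero h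
  exact ⟨p, hp⟩

theorem opn_vertex (C : Cplx S I dim K) {v : I} (hv : dim v = 0) {x : E} (hx : x ∈ K v) :
    Opn K v x := ⟨hx, fun j hj => by have := C.mono _ _ hj; omega⟩

theorem edge_ball (C : Cplx S I dim K) {e : I} (he : dim e = 1) :
    ∃ p q, p ≠ q ∧ IsBall 1 (K e) {p, q} ∧ ⋃ j ∈ {j | j < e}, K j = {p, q} := by
  have h := C.isBall e
  rw [he] at h
  obtain ⟨p, q, hne, hpq⟩ := Gn_296.exists_ends h
  exact ⟨p, q, hne, hpq ▸ h, hpq⟩

theorem face_ball (C : Cplx S I dim K) {f : I} (hf : dim f = 2) :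
    IsBall 2 (K f) (⋃ j ∈ {j | j < f}, K j) := hf ▸ C.isBall f

theorem interior_empty {X ι : Type*} [TopologicalSpace X] (s : Finset ι) (Z : ι → Set X)
    (hc : ∀ i, IsClosed (Z i)) (h : ∀ i ∈ s, interior (Z i) = ∅) :
    interior (⋃ i ∈ s, Z i) = ∅ := by
  classical
  induction s using Finset.induction_on with
  | empty => simp
  | insert a s ha ih =>
    rw [Finset.set_biUnion_insert, interior_union_isClosed_of_interior_empty (hc a)
      (ih fun i hi => h i (Finset.mem_insert_of_mem hi))]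
    exact h a (Finset.mem_insert_self _ _)

theorem Srf.le2 (hS : Srf S dS) (C : Cplx S I dim K) (i : I) : dim i ≤ 2 := by
  by_contra h
  obtain ⟨a, -⟩ := C.isBall i
  have h0 : (0 : Fin (dim i) → ℝ) ∈ ball (0 : Fin (dim i) → ℝ) 1 := mem_ball_self one_pos
  have hx : a.f 0 ∈ S := C.sub i (a.mf (ball_subset_closedBall h0))
  obtain ⟨D, Γ, ⟨b, -⟩, -, hn, -⟩ := hS.loc _ hx
  obtain ⟨O, hO, hxO, hOD⟩ := exists_open_of_nhdsWithin hn
  have hc : ContinuousOn a.f (ball 0 1) := a.pf.1.mono ball_subset_closedBall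
  have hm : MapsTo a.f (ball 0 1 ∩ a.f ⁻¹' O) D := fun y hy =>
    hOD ⟨hy.2, C.sub i (a.mf (ball_subset_closedBall hy.1))⟩
  exact no_inj (k := dim i) (m := 2) (by omega) (hc.isOpen_inter_preimage isOpen_ball hO)
    ⟨0, h0, hxO⟩ (g := fun y => b.g (a.f y)) (b.pg.1.comp (hc.mono inter_subset_left) hm)
    fun y hy z hz e => a.injOn (ball_subset_closedBall hy.1) (ball_subset_closedBall hz.1)
      (b.symm.injOn (hm hy) (hm hz) e)

theorem Srf.exists_face [Finite I] (hS : Srf S dS) (C : Cplx S I dim K) {x : E} (hx : x ∈ S) :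
    ∃ f, dim f = 2 ∧ x ∈ K f := by
  have := Fintype.ofFinite I
  obtain ⟨O, hO, hxO, hnear⟩ := exists_near C x
  obtain ⟨D, Γ, hD, hs, hn, -⟩ := hS.loc x hx
  have hxD : x ∈ D := mem_of_mem_nhdsWithin hx hn
  rw [← hD.closure_diff, mem_closure_iff_nhds] at hxD
  obtain ⟨y, hyO, hy⟩ := hxD O (hO.mem_nhds hxO)
  obtain ⟨b, hb⟩ := hD
  rw [diff_eq_image b hb] at hy
  obtain ⟨w, hw, rfl⟩ := hy
  have hc : ContinuousOn b.f (ball 0 1) := b.pf.1.mono ball_subset_closedBall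
  have hU : IsOpen (ball 0 1 ∩ b.f ⁻¹' O) := hc.isOpen_inter_preimage isOpen_ball hO
  obtain ⟨r, hr, hrU⟩ := Metric.nhds_basis_closedBall.mem_iff.1 (hU.mem_nhds ⟨hw, hyO⟩)
  have hcube : closedBall w r ⊆ cube 2 := fun z hz => ball_subset_closedBall (hrU hz).1
  let Z : I → Set (Fin 2 → ℝ) := fun j => closedBall w r ∩ b.f ⁻¹' K j
  have hZ : ∀ j, IsClosed (Z j) := fun j =>
    (b.pf.1.mono hcube).preimage_isClosed_of_isClosed isClosed_closedBall (C.isClosed j)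
  have hex : ∃ j, (interior (Z j)).Nonempty := by
    by_contra h
    push Not at h
    have h1 := interior_empty Finset.univ Z hZ fun i _ => h i
    have h2 : w ∈ interior (⋃ i ∈ (Finset.univ : Finset I), Z i) := by
      refine interior_mono ?_ (mem_interior_iff_mem_nhds.2 (closedBall_mem_nhds w hr))
      intro z hz
      obtain ⟨j, hj⟩ := C.cover _ (hs (b.mf (hcube hz)))
      exact mem_biUnion (Finset.mem_coe.2 (Finset.mem_univ j)) ⟨hz, hj⟩
    rw [h1] at h2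
    exact h2
  obtain ⟨j, z, hz⟩ := hex
  have hz' := interior_subset hz
  refine ⟨j, ?_, hnear j _ (hrU hz'.1).2 hz'.2⟩
  have h2 := hS.le2 C j
  by_contra hne
  obtain ⟨a, -⟩ := C.isBall j
  have hsub : interior (Z j) ⊆ cube 2 := fun u hu => hcube (interior_subset hu).1
  have hm : MapsTo b.f (interior (Z j)) (K j) := fun u hu => (interior_subset hu).2
  exact no_inj (k := 2) (m := dim j) (by omega) isOpen_interior ⟨z, hz⟩
    (g := fun u => a.g (b.f u)) (a.pg.1.comp (b.pf.1.mono hsub) hm)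
    fun u hu v hv e => b.injOn (hsub hu) (hsub hv) (a.symm.injOn (hm hu) (hm hv) e)

theorem Srf.pure [Finite I] (hS : Srf S dS) (C : Cplx S I dim K) (i : I) :
    ∃ f, dim f = 2 ∧ i ≤ f := by
  obtain ⟨x, hx⟩ := exists_opn_pt C i
  obtain ⟨f, hf, hxf⟩ := hS.exists_face C (C.sub i hx.1)
  exact ⟨f, hf, C.opn_le hx hxf⟩

/-- two different faces at an edge fill a neighbourhood -/
theorem Srf.two_faces [Finite I] (hS : Srf S dS) (C : Cplx S I dim K) {e f₁ f₂ : I}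
    (he : dim e = 1) (h₁ : e < f₁) (h₂ : e < f₂) (hne : f₁ ≠ f₂) {x : E} (hx : Opn K e x) :
    x ∉ dS ∧ K f₁ ∪ K f₂ ∈ 𝓝[S] x := by
  classical
  have d₁ : dim f₁ = 2 := by have := C.mono _ _ h₁; have := hS.le2 C f₁; omega
  have d₂ : dim f₂ = 2 := by have := C.mono _ _ h₂; have := hS.le2 C f₂; omega
  obtain ⟨p, q, -, hA, hpq⟩ := edge_ball C he
  obtain ⟨B₁, hB₁, -⟩ := exists_compl_arc (face_ball C d₁) hA
    (subset_biUnion_of_mem (u := K) (show e ∈ {j | j < f₁} from h₁))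
  obtain ⟨B₂, hB₂, -⟩ := exists_compl_arc (face_ball C d₂) hA
    (subset_biUnion_of_mem (u := K) (show e ∈ {j | j < f₂} from h₂))
  obtain ⟨m, hm, -⟩ := (isBall_Mid 1).exists_equiv hA
  obtain ⟨u, hu, -, -⟩ := (ballPair_up 1).extend hB₁ m hm
  obtain ⟨d, hd, -, -⟩ := (ballPair_dn 1).extend hB₂ m hm
  obtain ⟨O, hO, hxO, hnear⟩ := exists_near C x
  let g : (Fin 1 → ℝ) × ℝ → E := fun z => if 0 ≤ z.2 then u.f z else d.f z
  have gU : ∀ z ∈ Cb_609.Up 1, g z = u.f z := fun z hz => if_pos hz.1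
  have gD : ∀ z ∈ Cb_609.Dn 1, g z = d.f z := by
    intro z hz
    by_cases h : 0 ≤ z.2
    · have hz0 : z.2 = 0 := le_antisymm hz.1 h
      have hM : z ∈ Mid 1 := ⟨hz0, by have := hz.2; rw [hz0] at this; simpa using this⟩
      simp only [g, h, if_true]
      rw [hu hM, hd hM]
    · exact if_neg h
  have hcov : ∀ z ∈ U1 (Fin 1 → ℝ), z ∈ Cb_609.Up 1 ∪ Cb_609.Dn 1 := by
    intro z hz
    rw [Up_union_Dn]
    exact le_of_lt (show N1 z < 1 from hz)
  have hgc : ContinuousOn g (U1 (Fin 1 → ℝ)) :=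
    (ContinuousOn.union_of_isClosed (u.pf.1.congr gU) (d.pf.1.congr gD)
      (ballPair_up 1).ball.isClosed (ballPair_dn 1).ball.isClosed).mono hcov
  have hgm : ∀ z ∈ U1 (Fin 1 → ℝ), g z ∈ K f₁ ∪ K f₂ := by
    intro z hz
    rcases hcov z hz with h | h
    · rw [gU z h]; exact Or.inl (u.mf h)
    · rw [gD z h]; exact Or.inr (d.mf h)
  have hw : m.g x ∈ Mid 1 := m.mg hx.1
  have hwU : m.g x ∈ U1 (Fin 1 → ℝ) := by
    have h3 : ‖(m.g x).1‖ ≠ 1 := by
      intro h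
      have h4 : x ∈ ({p, q} : Set E) := by
        rw [← hm]; exact ⟨m.g x, ⟨hw.1, h⟩, m.ri x hx.1⟩
      rw [← hpq] at h4
      exact ((opn_iff e x).1 hx).2 h4
    show N1 (m.g x) < 1
    simp only [N1, hw.1, abs_zero, add_zero]
    exact lt_of_le_of_ne hw.2 h3
  have hgw : g (m.g x) = x := by
    rw [gU _ ((ballPair_up 1).subset₁ hw), hu hw, m.ri x hx.1]
  have key : ∀ z ∈ Cb_609.Up 1, ∀ z' ∈ Cb_609.Dn 1, u.f z ∈ O → u.f z = d.f z' → z = z' := by
    intro z hz z' hz' hO' e'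
    obtain ⟨c, c₁, c₂, hc⟩ := C.mem_inter (u.mf hz) (e' ▸ d.mf hz' : u.f z ∈ K f₂)
    have h5 : e ≤ c := C.opn_le hx (hnear c _ hO' hc)
    have h6 : c ≠ f₁ := by
      rintro rfl
      exact hne (eq_of_le C c₂ (by omega))
    have h7 := C.mono _ _ (lt_of_le_of_ne c₁ h6)
    have h8 : e = c := eq_of_le C h5 (by omega)
    subst h8
    have ht : m.g (u.f z) ∈ Mid 1 := m.mg hc
    have a1 : z = m.g (u.f z) := u.injOn hz ((ballPair_up 1).subset₁ ht)
      (by rw [hu ht, m.ri _ hc])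
    have a2 : z' = m.g (u.f z) := d.injOn hz' ((ballPair_dn 1).subset₁ ht)
      (by rw [hd ht, m.ri _ hc, e'])
    rw [a2, ← a1]
  have hinj : InjOn g (U1 (Fin 1 → ℝ) ∩ g ⁻¹' O) := by
    intro z hz z' hz' e'
    have hzO : g z ∈ O := hz.2
    rcases hcov z hz.1 with h | h <;> rcases hcov z' hz'.1 with h' | h'
    · rw [gU z h, gU z' h'] at e'; exact u.injOn h h' e'
    · rw [gU z h] at hzO; rw [gU z h, gD z' h'] at e'; exact key z h z' h' hzO e'
    · rw [e', gU z' h'] at hzO; rw [gD z h, gU z' h'] at e'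
      exact (key z' h' z h hzO e'.symm).symm
    · rw [gD z h, gD z' h'] at e'; exact d.injOn h h' e'
  have hres := hS.of_inj (F := (Fin 1 → ℝ) × ℝ) finrank_model
    (hgc.isOpen_inter_preimage isOpen_U1 hO) (hgc.mono inter_subset_left) hinj
    (fun z hz => (hgm z hz.1).elim (fun h => C.sub _ h) fun h => C.sub _ h)
    (w := m.g x) ⟨hwU, by show g (m.g x) ∈ O; rw [hgw]; exact hxO⟩
  rw [hgw] at hres
  refine ⟨hres.1, Filter.mem_of_superset hres.2 ?_⟩
  rintro _ ⟨z, hz, rfl⟩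
  exact hgm z hz.1

theorem Srf.two [Finite I] (hS : Srf S dS) (C : Cplx S I dim K) {e f₁ f₂ f₃ : I}
    (he : dim e = 1) (h₁ : e < f₁) (h₂ : e < f₂) (h₃ : e < f₃) :
    f₁ = f₂ ∨ f₁ = f₃ ∨ f₂ = f₃ := by
  by_contra h
  push Not at h
  obtain ⟨x, hx⟩ := exists_opn_pt C e
  obtain ⟨O, hO, hxO, hsub⟩ := exists_open_of_nhdsWithin (hS.two_faces C he h₁ h₂ h.1 hx).2
  obtain ⟨y, hyO, hy⟩ := opn_near C (C.subset h₃.le hx.1) (hO.mem_nhds hxO)
  have d₃ : 2 ≤ dim f₃ := by have := C.mono _ _ h₃; omega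
  rcases hsub ⟨hyO, C.sub _ hy.1⟩ with h' | h'
  · exact h.2.1 (eq_of_le C (C.opn_le hy h') ((hS.le2 C _).trans d₃)).symm
  · exact h.2.2 (eq_of_le C (C.opn_le hy h') ((hS.le2 C _).trans d₃)).symm

/-- if `f` is the only face through `x` then it is a neighbourhood -/
theorem Srf.one_face [Finite I] (hS : Srf S dS) (C : Cplx S I dim K) {f : I} {x : E}
    (h : ∀ f', dim f' = 2 → x ∈ K f' → f' = f) : K f ∈ 𝓝[S] x := by
  obtain ⟨O, hO, hxO, hnear⟩ := exists_near C x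
  refine mem_nhdsWithin.2 ⟨O, hO, hxO, fun y hy => ?_⟩
  obtain ⟨f', hf', hy'⟩ := hS.exists_face C hy.2
  exact h f' hf' (hnear _ _ hy.1 hy') ▸ hy'

theorem Srf.opn_face (hS : Srf S dS) (C : Cplx S I dim K) {f : I} (hf : dim f = 2) {x : E}
    (hx : Opn K f x) : x ∉ dS :=
  (hS.disc_int (face_ball C hf) (C.sub f) hx.1 ((opn_iff f x).1 hx).2).1

theorem Srf.opn_edge [Finite I] (hS : Srf S dS) (C : Cplx S I dim K) {e : I} (he : dim e = 1)
    {x : E} (hx : Opn K e x) : x ∈ dS ↔ ∃ f, e < f ∧ ∀ f', e < f' → f' = f := by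
  constructor
  · intro h
    obtain ⟨f, hf, hef⟩ := hS.pure C e
    have hlt : e < f := lt_of_le C.mono hef (by omega)
    refine ⟨f, hlt, fun f' hf' => ?_⟩
    by_contra hne
    exact (hS.two_faces C he hf' hlt hne hx).1 h
  · rintro ⟨f, hlt, hf⟩
    have d : dim f = 2 := by have := C.mono _ _ hlt; have := hS.le2 C f; omega
    have hn : K f ∈ 𝓝[S] x := hS.one_face C fun f' d' hx' =>
      hf f' (lt_of_le C.mono (C.opn_le hx hx') (by omega))
    exact (hS.bd_iff (face_ball C d) (C.sub f) (C.subset hlt.le hx.1) hn).2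
      (mem_biUnion (show e ∈ {j | j < f} from hlt) hx.1)

/-- the rim of a disc has no isolated point -/
theorem rim_perfect {D Γ : Set E} (h : IsBall 2 D Γ) {x : E} (hx : x ∈ Γ) {O : Set E}
    (hO : O ∈ 𝓝 x) : ∃ y ∈ O, y ∈ Γ ∧ y ≠ x := by
  obtain ⟨a, rfl⟩ := h
  have hc : IsPreconnected (a.f '' sph 2) :=
    (isPreconnected_sphere (by rw [← finrank_eq_rank]; simp) _ _).image _
      (a.pf.1.mono sph_subset_cube)
  have hnt : (a.f '' sph 2).Nontrivial := by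
    have m1 : (fun _ => 1 : Fin 2 → ℝ) ∈ sph 2 := by simp [sph, pi_norm_const]
    have m2 : (fun _ => -1 : Fin 2 → ℝ) ∈ sph 2 := by simp [sph, pi_norm_const]
    refine ⟨_, ⟨_, m1, rfl⟩, _, ⟨_, m2, rfl⟩, fun e => ?_⟩
    have := congrFun (a.injOn (sph_subset_cube m1) (sph_subset_cube m2) e) 0
    norm_num at this
  have := (hc.preperfect_of_nontrivial hnt) x hx
  rw [accPt_iff_nhds] at this
  obtain ⟨y, hy, hne⟩ := this O hO
  exact ⟨y, hy.1, hy.2, hne⟩

theorem Srf.bd_eq [Finite I] (hS : Srf S dS) (C : Cplx S I dim K) (x : E) :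
    x ∈ dS ↔ ∃ e f, dim e = 1 ∧ x ∈ K e ∧ e < f ∧ ∀ f', e < f' → f' = f := by
  constructor
  · intro hx
    obtain ⟨O, hO, hxO, hnear⟩ := exists_near C x
    obtain ⟨D, Γ, hD, hs, hn, hiff⟩ := hS.loc x (hS.sub hx)
    obtain ⟨y, ⟨hyO, hy⟩, hyΓ, hne⟩ := rim_perfect hD (hiff.1 hx)
      (Filter.inter_mem (hO.mem_nhds hxO) (hS.bd_near hD hs hn))
    have hyd : y ∈ dS := hy.2 hyΓ
    obtain ⟨c, hc⟩ := exists_carrier C (hS.sub hyd)
    have hxc := hnear c y hyO hc.1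
    have h2 := hS.le2 C c
    have h0 : dim c ≠ 0 := by
      intro h
      obtain ⟨p, hp⟩ := vertex_eq C h
      have a := hc.1
      rw [hp] at a hxc
      exact hne (a.trans hxc.symm)
    have h3 : dim c ≠ 2 := fun h => hS.opn_face C h hc hyd
    have h1 : dim c = 1 := by omega
    obtain ⟨f, hf⟩ := (hS.opn_edge C h1 hc).1 hyd
    exact ⟨c, f, h1, hxc, hf⟩
  · rintro ⟨e, f, he, hx, hf⟩
    rw [← hS.isClosed_bd.closure_eq, mem_closure_iff_nhds]
    intro O hO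
    obtain ⟨y, hyO, hy⟩ := opn_near C hx hO
    exact ⟨y, hyO, (hS.opn_edge C he hy).2 ⟨f, hf⟩⟩

theorem preconnected_open_punct {U : Set (Fin 2 → ℝ)} (hU : Convex ℝ U) (ho : IsOpen U)
    (w : Fin 2 → ℝ) : IsPreconnected (U \ {w}) := by
  by_cases hw : w ∈ U
  · obtain ⟨r, hr, hb⟩ := Metric.nhds_basis_closedBall.mem_iff.1 (ho.mem_nhds hw)
    have hm : ∀ s t : ℝ, |s| ≤ r → |t| ≤ r → w + ![s, t] ∈ U := by
      intro s t hs ht
      refine hb ?_
      rw [mem_closedBall, dist_eq_norm, add_sub_cancel_left, pi_norm_le_iff_of_nonneg hr.le]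
      intro i
      fin_cases i <;> simpa
    have hl : ∀ i, IsPreconnected (U ∩ {z | z i < w i}) := fun i =>
      (hU.inter (convex_halfSpace_lt (LinearMap.proj (R := ℝ) i).isLinear _)).isPreconnected
    have hg : ∀ i, IsPreconnected (U ∩ {z | w i < z i}) := fun i =>
      (hU.inter (convex_halfSpace_gt (LinearMap.proj (R := ℝ) i).isLinear _)).isPreconnected
    have p1 : |r| ≤ r := (abs_of_pos hr).le
    have p2 : |-r| ≤ r := by rw [abs_neg]; exact p1
    have e0 : ∀ s t : ℝ, (w + ![s, t]) 0 = w 0 + s := fun s t => rfl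
    have e1 : ∀ s t : ℝ, (w + ![s, t]) 1 = w 1 + t := fun s t => rfl
    have q1 : w + ![-r, -r] ∈ U ∩ {z | z 0 < w 0} :=
      ⟨hm _ _ p2 p2, show (w + ![-r, -r]) 0 < w 0 by rw [e0]; linarith⟩
    have q2 : w + ![-r, -r] ∈ U ∩ {z | z 1 < w 1} :=
      ⟨hm _ _ p2 p2, show (w + ![-r, -r]) 1 < w 1 by rw [e1]; linarith⟩
    have q3 : w + ![r, -r] ∈ U ∩ {z | z 1 < w 1} :=
      ⟨hm _ _ p1 p2, show (w + ![r, -r]) 1 < w 1 by rw [e1]; linarith⟩
    have q4 : w + ![r, -r] ∈ U ∩ {z | w 0 < z 0} :=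
      ⟨hm _ _ p1 p2, show w 0 < (w + ![r, -r]) 0 by rw [e0]; linarith⟩
    have q5 : w + ![r, r] ∈ U ∩ {z | w 0 < z 0} :=
      ⟨hm _ _ p1 p1, show w 0 < (w + ![r, r]) 0 by rw [e0]; linarith⟩
    have q6 : w + ![r, r] ∈ U ∩ {z | w 1 < z 1} :=
      ⟨hm _ _ p1 p1, show w 1 < (w + ![r, r]) 1 by rw [e1]; linarith⟩
    have h1 := IsPreconnected.union _ q1 q2 (hl 0) (hl 1)
    have h2 := IsPreconnected.union _ (mem_union_right _ q3) q4 h1 (hg 0)
    have h3 := IsPreconnected.union _ (mem_union_right _ q5) q6 h2 (hg 1)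
    convert h3 using 1
    ext z
    simp only [mem_sdiff, mem_singleton_iff, mem_union, mem_inter_iff, mem_ofPred_eq]
    constructor
    · rintro ⟨hz, hne⟩
      by_contra h
      simp only [hz, true_and, not_or, not_lt] at h
      apply hne
      funext i
      fin_cases i
      · exact le_antisymm h.1.2 h.1.1.1
      · exact le_antisymm h.2 h.1.1.2
    · rintro (((h | h) | h) | h) <;> exact ⟨h.1, fun e => by subst e; exact lt_irrefl _ h.2⟩
  · rw [sdiff_singleton_eq_self hw]; exact hU.isPreconnected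

/-- a convex set with interior points in the plane, minus a point, is connected -/
theorem preconnected_punct {Q : Set (Fin 2 → ℝ)} (hQ : Convex ℝ Q) (hi : (interior Q).Nonempty)
    (w : Fin 2 → ℝ) : IsPreconnected (Q \ {w}) := by
  refine (preconnected_open_punct hQ.interior isOpen_interior w).subset_closure
    (fun z hz => ⟨interior_subset hz.1, hz.2⟩) ?_
  have h1 : interior Q ⊆ closure (interior Q \ {w}) :=
    (dense_compl_singleton w).open_subset_closure_inter isOpen_interior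
  intro z hz
  have h2 : z ∈ closure (interior Q) := by
    rw [hQ.closure_interior_eq_closure_of_nonempty_interior hi]; exact subset_closure hz.1
  exact closure_minimal h1 isClosed_closure h2

/-- punctured neighbourhoods in a surface are connected -/
theorem Srf.exists_punct (hS : Srf S dS) {p : E} (hp : p ∈ S) {O : Set E} (hO : O ∈ 𝓝 p) :
    ∃ N, N ⊆ O ∩ S ∧ N ∈ 𝓝[S] p ∧ IsPreconnected (N \ {p}) := by
  obtain ⟨D, Γ, ⟨b, -⟩, hs, hn, -⟩ := hS.loc p hp
  have hpD : p ∈ D := mem_of_mem_nhdsWithin hp hn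
  have hw : b.g p ∈ cube 2 := b.mg hpD
  have h1 : b.f ⁻¹' O ∈ 𝓝[cube 2] (b.g p) :=
    (b.pf.1 _ hw).preimage_mem_nhdsWithin (by rw [b.ri p hpD]; exact hO)
  obtain ⟨r, hr, hb⟩ := Metric.mem_nhdsWithin_iff.1 h1
  have hQ : Convex ℝ (ball (b.g p) r ∩ cube 2) := (convex_ball _ _).inter (convex_closedBall _ _)
  have hi : (interior (ball (b.g p) r ∩ cube 2)).Nonempty := by
    rw [interior_inter, isOpen_ball.interior_eq, interior_closedBall _ one_ne_zero]
    have h2 : b.g p ∈ closure (ball (0 : Fin 2 → ℝ) 1) := by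
      rw [closure_ball _ one_ne_zero]; exact hw
    exact mem_closure_iff_nhds.1 h2 _ (ball_mem_nhds _ hr)
  refine ⟨b.f '' (ball (b.g p) r ∩ cube 2), ?_, ?_, ?_⟩
  · rintro _ ⟨z, hz, rfl⟩
    exact ⟨hb hz, hs (b.mf hz.2)⟩
  · rw [← nhdsWithin_eq_of hs hn]
    have h2 : b.g ⁻¹' ball (b.g p) r ∈ 𝓝[D] p :=
      (b.pg.1 p hpD).preimage_mem_nhdsWithin (ball_mem_nhds _ hr)
    filter_upwards [h2, self_mem_nhdsWithin] with y hy hyD
    exact ⟨b.g y, ⟨hy, b.mg hyD⟩, b.ri y hyD⟩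
  · have h3 := (preconnected_punct hQ hi (b.g p)).image b.f
      (b.pf.1.mono fun z hz => hz.1.2)
    convert h3 using 1
    ext y
    constructor
    · rintro ⟨⟨z, hz, rfl⟩, hne⟩
      refine ⟨z, ⟨hz, fun e => hne ?_⟩, rfl⟩
      rw [mem_singleton_iff] at e ⊢
      rw [e, b.ri p hpD]
    · rintro ⟨z, ⟨hz, hne⟩, rfl⟩
      refine ⟨⟨z, hz, rfl⟩, fun e => hne ?_⟩
      rw [mem_singleton_iff] at e ⊢
      rw [← e, b.li z hz.2]

theorem Srf.link [Finite I] (hS : Srf S dS) (C : Cplx S I dim K) {v : I} (c : I → Prop)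
    (hv : dim v = 0) (hc : ∀ e f f', v < e → e < f → e < f' → (c f ↔ c f')) {f f' : I}
    (hf : dim f = 2) (hf' : dim f' = 2) (h : v < f) (h' : v < f') (cf : c f) : c f' := by
  by_contra cf'
  obtain ⟨p, hp⟩ := vertex_eq C hv
  have hpv : p ∈ K v := by rw [hp]; rfl
  have hop := opn_vertex C hv hpv
  obtain ⟨O, hO, hpO, hnear⟩ := exists_near C p
  obtain ⟨N, hN, hn, hcon⟩ := hS.exists_punct (C.sub v hpv) (hO.mem_nhds hpO)
  obtain ⟨O', hO', hpO', hO'N⟩ := exists_open_of_nhdsWithin hn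
  have hne : ∀ g, v < g → ((N \ {p}) ∩ K g).Nonempty := by
    intro g hg
    obtain ⟨y, hy, hyg⟩ := opn_near C (C.subset hg.le hpv) (hO'.mem_nhds hpO')
    exact ⟨y, ⟨hO'N ⟨hy, C.sub _ hyg.1⟩, fun e => hyg.2 v hg (e ▸ hpv)⟩, hyg.1⟩
  obtain ⟨y, hy, hA, hB⟩ := isPreconnected_closed_iff.1 hcon
    (⋃ g ∈ {g | dim g = 2 ∧ c g}, K g) (⋃ g ∈ {g | dim g = 2 ∧ ¬ c g}, K g)
    ((toFinite _).isClosed_biUnion fun i _ => C.isClosed i)
    ((toFinite _).isClosed_biUnion fun i _ => C.isClosed i)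
    (fun y hy => by
      obtain ⟨g, hg, hyg⟩ := hS.exists_face C (hN hy.1).2
      by_cases cg : c g
      · exact Or.inl (mem_biUnion (show g ∈ {g | dim g = 2 ∧ c g} from ⟨hg, cg⟩) hyg)
      · exact Or.inr (mem_biUnion (show g ∈ {g | dim g = 2 ∧ ¬ c g} from ⟨hg, cg⟩) hyg))
    ((hne f h).mono (inter_subset_inter_right _
      (subset_biUnion_of_mem (u := K) (show f ∈ {g | dim g = 2 ∧ c g} from ⟨hf, cf⟩))))
    ((hne f' h').mono (inter_subset_inter_right _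
      (subset_biUnion_of_mem (u := K) (show f' ∈ {g | dim g = 2 ∧ ¬ c g} from ⟨hf', cf'⟩))))
  obtain ⟨g, ⟨dg, cg⟩, hg⟩ := mem_iUnion₂.1 hA
  obtain ⟨g', ⟨dg', cg'⟩, hg'⟩ := mem_iUnion₂.1 hB
  obtain ⟨m, m₁, m₂, hm⟩ := C.mem_inter hg hg'
  have h1 : v ≤ m := C.opn_le hop (hnear m y (hN hy.1).1 hm)
  have h2 : v ≠ m := by
    rintro rfl
    rw [hp] at hm
    exact hy.2 hm
  have h3 : m ≠ g := by
    rintro rfl
    exact cg' (eq_of_le C m₂ (by omega) ▸ cg)
  have h4 : m ≠ g' := by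
    rintro rfl
    exact cg' (eq_of_le C m₁ (by omega) ▸ cg)
  exact cg' ((hc m g g' (lt_of_le_of_ne h1 h2) (lt_of_le_of_ne m₁ h3)
    (lt_of_le_of_ne m₂ h4)).1 cg)

/-- **every finite complex of balls on a surface is a surface complex** -/
theorem Srf.sc [Finite I] (hS : Srf S dS) (C : Cplx S I dim K) : SC S dS I dim K where
  cx := C
  le2 := hS.le2 C
  pure := hS.pure C
  two _ _ _ _ he h₁ h₂ h₃ := hS.two C he h₁ h₂ h₃
  bd := hS.bd_eq C
  link _ c hv hc _ _ hf hf' h h' :=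
    ⟨hS.link C c hv hc hf hf' h h', hS.link C c hv hc hf' hf h' h⟩

end Crest.Agent.X212.Srf12
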