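import Crest.Agent.X212.Srf12.Glue
import Crest.Agent.X212.Ann83.Main
import Crest.Agent.X212.Lev33.St2

/-!
# X212 / SURF (helper12): recognition of annuli
-/

set_option autoImplicit false

open Set Metric Topology Module

namespace Crest.Agent.X212.Srf12

open Crest.Agent.R096 Crest.Agent.R096.Ce_537 Crest.Agent.R096.Cb_609 Crest.Agent.R096.Coh_184

variable {E : Type*} [NormedAddCommGroup E] [NormedSpace ℝ E]
  {F : Type*} [NormedAddCommGroup F] [NormedSpace ℝ F]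

theorem Loop.mem {G : Set E} {γ : ℝ → E} (h : Loop G γ) (s : ℝ) : γ s ∈ G := h.img ▸ ⟨s, rfl⟩

theorem Loop.map {G : Set E} {G' : Set F} {γ : ℝ → E} (h : Loop G γ) (e : PLEquiv G G') :
    Loop G' fun s => e.f (γ s) :=
  ⟨fun R => e.pf.comp (h.pl R) fun s _ => h.mem s,
    (range_comp e.f γ).trans ((congrArg _ h.img).trans e.image_eq),
    fun s t => (e.injOn.eq_iff (h.mem s) (h.mem t)).trans (h.fib s t)⟩

theorem Ann.mem {S : Set E} {g : (Fin 2 → ℝ) → E} (h : Ann S g) {y : Fin 2 → ℝ} (hy : |y 0| ≤ 1) :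
    g y ∈ S := h.img ▸ ⟨y, hy, rfl⟩

theorem Ann.map {S : Set E} {g : (Fin 2 → ℝ) → E} (h : Ann S g) {f : E → F} (hf : PLOn f S)
    (hi : InjOn f S) : Ann (f '' S) fun y => f (g y) :=
  ⟨fun R => hf.comp (h.pl R) fun _ hy => h.mem hy.1, by rw [← h.img, image_image],
    fun y y' a b => (hi.eq_iff (h.mem a) (h.mem b)).trans (h.fib y y' a b)⟩

theorem Ann.swap {S : Set E} {g : (Fin 2 → ℝ) → E} (h : Ann S g) :
    Ann S fun y => g ![-y 0, y 1] := by
  refine ⟨fun R => (h.pl R).comp (Lad50.pl_vec2 (Lad50.pl_neg (Lad50.pl_coord 0 _))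
    (Lad50.pl_coord 1 _)) fun y hy => by simpa using hy, h.img ▸ Subset.antisymm ?_ ?_,
    fun y y' a b => (h.fib _ _ (by simpa using a) (by simpa using b)).trans (by simp)⟩
  · rintro _ ⟨y, hy, rfl⟩
    exact ⟨_, by simpa using hy, rfl⟩
  · rintro _ ⟨y, hy, rfl⟩
    exact ⟨![-y 0, y 1], by simpa using hy, congrArg g (by ext i; fin_cases i <;> simp)⟩

omit [NormedAddCommGroup E] [NormedSpace ℝ E] in
theorem swap_img (g : (Fin 2 → ℝ) → E) (c : ℝ) :
    (fun y : Fin 2 → ℝ => g ![-y 0, y 1]) '' {y | y 0 = c} = g '' {y | y 0 = -c} := by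
  refine Subset.antisymm ?_ ?_
  · rintro _ ⟨y, rfl, rfl⟩
    exact ⟨_, rfl, rfl⟩
  · rintro _ ⟨y, hy, rfl⟩
    exact ⟨![-y 0, y 1], by simp [show y 0 = -c from hy],
      congrArg g (by ext i; fin_cases i <;> simp)⟩

theorem trivAll_ball {ι A : Type*} [AddCommGroup A] [Finite ι] {k : ℕ} {K dK : Set E}
    (h : IsBall k K dK) : TrivAll ι A K := by
  obtain ⟨e, -⟩ := h
  have h2 := TrivAll.of_image (trivAll_convex (ι := ι) (A := A)
    (isCompact_closedBall (0 : Fin k → ℝ) 1) (convex_closedBall _ _)) isClosed_closedBall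
    (g := e.f) (π := e.g) e.pf.1 (by rw [e.image_eq]; exact e.pg.1) e.li
  rwa [e.image_eq] at h2

variable [FiniteDimensional ℝ E]

theorem Loop.circ {G : Set E} {γ : ℝ → E} (h : Loop G γ) : Circ G := by
  have arc : ∀ a : ℝ, 0 ≤ a → a ≤ 1 / 2 →
      IsBall 1 (γ '' Icc a (a + 1 / 2)) {γ a, γ (a + 1 / 2)} := fun a h0 h1 => by
    have := (isBall_segment (a := a) (b := a + 1 / 2) (by linarith)).image_injOn
      (f := γ) ((h.pl 1).mono ?_) ?_
    · rwa [segment_eq_Icc (by linarith), image_pair] at this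
    · rw [segment_eq_Icc (by linarith)]
      exact Icc_subset_Icc (by linarith) (by linarith)
    · rw [segment_eq_Icc (by linarith)]
      intro s hs t ht e
      obtain ⟨m, hm⟩ := (h.fib s t).1 e
      have : |(m : ℝ)| < 1 := abs_lt.2 ⟨by linarith [hs.1, ht.2], by linarith [hs.2, ht.1]⟩
      have : m = 0 := Int.abs_lt_one_iff.1 (by exact_mod_cast this)
      rw [this, Int.cast_zero] at hm
      linarith
  have hA := arc 0 le_rfl (by norm_num)
  have hB := arc (1 / 2) (by norm_num) le_rfl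
  have e1 : γ (1 / 2 + 1 / 2) = γ 0 := (h.fib _ _).2 ⟨1, by norm_num⟩
  rw [zero_add] at hA
  rw [e1, pair_comm] at hB
  have := circ_union hA hB (Subset.antisymm ?_ (subset_inter hA.subset hB.subset))
  · convert this using 1
    rw [← h.img]
    refine Subset.antisymm ?_ (union_subset (image_subset_range _ _) (image_subset_range _ _))
    rintro _ ⟨s, rfl⟩
    have e : γ (Int.fract s) = γ s := (h.fib _ _).2 ⟨-⌊s⌋, by rw [Int.fract]; push_cast; ring⟩
    rcases le_total (Int.fract s) (1 / 2) with a | a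
    · exact Or.inl ⟨_, ⟨Int.fract_nonneg s, a⟩, e⟩
    · exact Or.inr ⟨_, ⟨a, by linarith [Int.fract_lt_one s]⟩, e⟩
  · rintro _ ⟨⟨s, hs, rfl⟩, t, ht, e⟩
    obtain ⟨m, hm⟩ := (h.fib t s).1 e
    have h0 : (0 : ℝ) ≤ m := by linarith [hs.2, ht.1]
    have h1 : (m : ℝ) ≤ 1 := by linarith [hs.1, ht.2]
    have h0' : 0 ≤ m := by exact_mod_cast h0
    have h1' : m ≤ 1 := by exact_mod_cast h1
    obtain rfl | rfl : m = 0 ∨ m = 1 := by omega
    · exact Or.inr (congrArg γ (by simp at hm; linarith [hs.2, ht.1]))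
    · exact Or.inl (congrArg γ (by simp at hm; linarith [hs.1, ht.2]))

omit [FiniteDimensional ℝ E] in
theorem Circ.loop {G : Set E} (h : Circ G) : ∃ γ, Loop G γ := by
  obtain ⟨a⟩ := h
  have hD := (isBall_cube 2).image_injOn (f := fun x => (1 / 2 : ℝ) • x)
    (Lad50.pl_smul _ (plOn_id _)) (smul_right_injective _ (by norm_num)).injOn
  have hn : ∀ x ∈ (fun x => (1 / 2 : ℝ) • x) '' cube 2, ‖x‖ ≤ 1 / 2 := by
    rintro _ ⟨x, hx, rfl⟩
    rw [mem_closedBall_zero_iff] at hx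
    rw [norm_smul, Real.norm_of_nonneg (by norm_num)]
    linarith
  obtain ⟨g, hg, h1, -⟩ := Ann83.ann_of_disc (isBall_cube 2) hD
    (fun x hx => mem_closedBall_zero_iff.2 (by linarith [hn x hx]))
    (disjoint_left.2 fun x hx h => by linarith [hn x hx, mem_sphere_zero_iff_norm.1 h])
  exact ⟨_, (h1 ▸ Ann83.ann_loop hg (c := -1) (by norm_num)).map a⟩

/-- **a connected surface with two boundary circles, one of which carries `H¹`** -/
theorem Srf.ann {S G₁ G₂ : Set E} (h : Srf S (G₁ ∪ G₂)) (hd : Disjoint G₁ G₂)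
    (hc : IsPreconnected S) (h1 : H1Rel S G₁) (c₁ : Circ G₁) (c₂ : Circ G₂) :
    ∃ g, Ann S g ∧ g '' {y | y 0 = -1} = G₁ ∧ g '' {y | y 0 = 1} = G₂ := by
  let ι : E → E × ℝ := fun x => (x, 0)
  have hι : Function.Injective ι := fun x y e => congrArg Prod.fst e
  have cι : Continuous ι := by fun_prop
  have back : ∀ A : Set E, MapsTo Prod.fst (ι '' A) A := by
    rintro A _ ⟨x, hx, rfl⟩; exact hx
  let e : ∀ A : Set E, PLEquiv A (ι '' A) := fun A => ⟨ι, Prod.fst,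
    Thk1.pl_pair (plOn_id _) (plOn_const _ _), Thk1.pl_fst' _, mapsTo_image _ _, back A,
    fun _ _ => rfl, by rintro _ ⟨x, -, rfl⟩; rfl⟩
  have s₁ : G₁ ⊆ S := subset_union_left.trans h.sub
  have s₂ : G₂ ⊆ S := subset_union_right.trans h.sub
  obtain ⟨D, hD, h0⟩ := c₁.cap
  change IsBall 2 D (ι '' G₁) at hD
  have hS : Srf (ι '' S) (ι '' (G₁ ∪ G₂)) := h.map (e S)
  have hi : ι '' S ∩ D = ι '' G₁ := by
    refine Subset.antisymm ?_ (subset_inter (image_mono s₁) hD.subset)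
    rintro _ ⟨⟨x, -, rfl⟩, hx⟩
    exact ⟨x, h0 _ hx rfl, rfl⟩
  have hd' : Disjoint (ι '' G₂) (ι '' G₁) := (disjoint_image_iff hι).2 hd.symm
  have e1 : ι '' (G₁ ∪ G₂) \ ι '' G₁ = ι '' G₂ := by
    rw [image_union, union_sdiff_left, hd'.sdiff_eq_left]
  have c₂' : Circ (ι '' G₂) := c₂.map (e G₂)
  have hB := hS.glue (srf_of_isBall hD) hi (image_mono subset_union_left) Subset.rfl
    (e1 ▸ c₂'.isClosed)
  rw [union_sdiff_right, e1] at hB
  have pre : IsPreconnected (ι '' S ∩ D) := hi ▸ (c₁.map (e G₁)).isPreconnected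
  have hball := hB.ball ((hc.image _ cι.continuousOn).union' (hi ▸ c₁.nonempty.image _)
    hD.isPreconnected) c₂' fun n C d hC => by
      have tD := trivAll_ball hD C d (hC.mono subset_union_right)
      refine Triv.glue hC.closed hS.cpt.isClosed hD.isClosed
        (fun x hx => hC.cov (Or.inl hx.1)) pre (triv_of_section (g := ι) (h1 n _ _
          (coc_comp hC cι fun x hx => Or.inl ⟨x, hx, rfl⟩)
          (triv_comp tD cι.continuousOn fun x hx => hD.subset ⟨x, hx, rfl⟩))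
          continuous_fst.continuousOn (back S) ?_) tD
      rintro _ ⟨x, -, rfl⟩; rfl
  obtain ⟨g, hg, g1, g2⟩ := Ann83.ann_of_disc hball hD subset_union_right
    (disjoint_left.2 fun x hx hx' => disjoint_left.1 hd' hx' (hi ▸ ⟨image_mono s₂ hx', hx⟩))
  have e2 : (ι '' S ∪ D) \ (D \ ι '' G₁) = ι '' S := by
    rw [← hi]; ext x; simp only [mem_sdiff, mem_union, mem_inter_iff]; tauto
  have e3 : ∀ A : Set E, Prod.fst '' (ι '' A) = A := fun A => (e A).symm.image_eq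
  rw [e2] at hg
  have := hg.swap.map (e S).pg (e S).symm.injOn
  refine ⟨_, (e3 S) ▸ this, ?_, ?_⟩
  · refine (swap_img (fun y => (g y).1) (-1)).trans ?_
    rw [neg_neg, ← e3 G₁, ← g2, image_image]
  · rw [← e3 G₂, ← g1, ← swap_img, image_image]

/-- **(ANN-REC)** in any finite dimensional space -/
theorem Srf.annRec {S G₁ G₂ : Set E} {γ₁ γ₂ : ℝ → E} (h : Srf S (G₁ ∪ G₂)) (hd : Disjoint G₁ G₂)
    (hc : IsPreconnected S) (h1 : H1Rel S G₁) (l₁ : Loop G₁ γ₁) (l₂ : Loop G₂ γ₂) :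
    ∃ g, Ann S g ∧ (∀ s, g ![-1, s] = γ₁ s) ∧
      ((∀ s, g ![1, s] = γ₂ s) ∨ ∀ s, g ![1, s] = γ₂ (-s)) :=
  let ⟨_, hg, e₁, e₂⟩ := h.ann hd hc h1 l₁.circ l₂.circ
  Ann83.annf hg l₁ l₂ e₁ e₂

/-- **(ANN-REC)** -/
theorem annRec : Lev33.AnnRec := fun _ _ _ _ _ h hd hc => h.annRec hd hc.isPreconnected

end Crest.Agent.X212.Srf12
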