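import Crest.Agent.X212.Srf12.AnnR
import Crest.Agent.X212.Lev33.Nice

/-!
# X212 / SURF (helper12): germ cocycles and edge cocycles; non-separating circles
-/

set_option autoImplicit false

open Set Metric Topology Module

namespace Crest.Agent.X212.Srf12

open Crest.Agent.R096 Crest.Agent.R096.Ce_537 Crest.Agent.R096.Cb_609 Crest.Agent.R096.Coh_184
open Lev33 (Z2 Tr Prim)

theorem ev_cover {X ι : Type*} [TopologicalSpace X] [Finite ι] {C : ι → Set X}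
    (hC : ∀ i, IsClosed (C i)) {T : Set X} (hT : T ⊆ ⋃ i, C i) {x : X} {p : X → Prop}
    (h : ∀ i, x ∈ C i → ∀ᶠ y in 𝓝[C i ∩ T] x, p y) : ∀ᶠ y in 𝓝[T] x, p y := by
  have : ∀ i, ∀ᶠ y in 𝓝 x, y ∈ C i ∩ T → p y := fun i => by
    by_cases hx : x ∈ C i
    · exact eventually_nhdsWithin_iff.1 (h i hx)
    · filter_upwards [(hC i).isOpen_compl.mem_nhds hx] with y hy a using absurd a.1 hy
  rw [eventually_nhdsWithin_iff]
  filter_upwards [Filter.eventually_all.2 this] with y hy hyT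
  obtain ⟨i, hi⟩ := mem_iUnion.1 (hT hyT)
  exact hy i ⟨hi, hyT⟩

/-- differences of primitives on a finite closed cover -/
theorem tr_iff_triv {X ι A : Type*} [TopologicalSpace X] [Finite ι] [AddCommGroup A]
    {C : ι → Set X} (hC : ∀ i, IsClosed (C i)) {T : Set X} (hT : T ⊆ ⋃ i, C i)
    {c : X → X → Multiplicative A} {b : ι → X → Multiplicative A}
    (hb : ∀ i, Prim (C i ∩ T) c (b i)) {d : ι → ι → X → A}
    (hd : ∀ i j x, x ∈ C i → x ∈ C j → x ∈ T → d i j x = (b i x).toAdd - (b j x).toAdd) :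
    Tr T c ↔ Triv C d T := by
  constructor
  · rintro ⟨β, hβ⟩
    refine ⟨fun i x => (b i x * (β x)⁻¹).toAdd, fun i x hx => ?_, fun i j x hi hj hx => ?_⟩
    · filter_upwards [(hβ.mono inter_subset_right).lco (hb i) x hx] with y hy
      exact congrArg _ hy
    · rw [hd i j x hi hj hx]
      simp only [toAdd_mul, toAdd_inv]
      abel
  · rintro ⟨χ, h1, h2⟩
    rcases T.eq_empty_or_nonempty with rfl | ⟨x₀, h₀⟩
    · exact ⟨fun _ => 1, fun _ h => h.elim⟩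
    have : Nonempty ι := ⟨(mem_iUnion.1 (hT h₀)).choose⟩
    choose! k hk using fun x (hx : x ∈ T) => mem_iUnion.1 (hT hx)
    have key : ∀ i, ∀ x ∈ C i ∩ T, b (k x) x * (Multiplicative.ofAdd (χ (k x) x))⁻¹ =
        b i x * (Multiplicative.ofAdd (χ i x))⁻¹ := fun i x hx => by
      have := (h2 i (k x) x hx.1 (hk x hx.2) hx.2).trans (hd i (k x) x hx.1 (hk x hx.2) hx.2)
      refine Multiplicative.toAdd.injective ?_
      simp only [toAdd_mul, toAdd_inv, toAdd_ofAdd]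
      rw [sub_eq_iff_eq_add.1 this]
      abel
    refine ⟨fun x => b (k x) x * (Multiplicative.ofAdd (χ (k x) x))⁻¹,
      fun x hx => ev_cover hC hT fun i hi => ?_⟩
    filter_upwards [hb i x ⟨hi, hx⟩, h1 i x ⟨hi, hx⟩, self_mem_nhdsWithin] with y a1 a2 hy
    rw [key i y hy, key i x ⟨hi, hx⟩, a1, a2, mul_right_comm]

variable {E : Type*} [NormedAddCommGroup E] [NormedSpace ℝ E]
  {S dS : Set E} {I : Type*} [PartialOrder I] {dim : I → ℕ} {K : I → Set E}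

theorem ind_face (C : Cplx S I dim K) {f : I} (hf : dim f = 2) (e : I) :
    ind {e | dim e = 1 ∧ K e ⊆ ⋃ j ∈ {j | j < f}, K j} e = inc dim e f := by
  have h3 : e ∈ {e | dim e = 1 ∧ K e ⊆ ⋃ j ∈ {j | j < f}, K j} ↔ e < f ∧ dim f = dim e + 1 := by
    rw [hf, show (2 = dim e + 1) ↔ dim e = 1 by omega, ← sub_face_iff C]; exact and_comm
  unfold ind inc
  by_cases h4 : e < f ∧ dim f = dim e + 1
  · rw [if_pos h4, if_pos (h3.2 h4)]
  · rw [if_neg h4, if_neg (mt h3.1 h4)]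

variable [Fintype I]

theorem SC.cl_of_pot (h : SC S dS I dim K) {κ : I → ZMod 2} {φ : I → I → ZMod 2}
    (hφ : Pot dim κ φ) : Cl dim κ := fun f hf => by
  have := (ec_face h.cx hf).sum_ex h.cx (κ := κ)
    ⟨φ f, fun e he hs => hφ f e he ((sub_face_iff h.cx).1 hs).le⟩
  simpa only [ind_face h.cx hf] using this

/-- **germ cocycles come from edge cocycles** -/
theorem SC.of_germ (h : SC S dS I dim K) {c : E → E → Z2} (hc : Lev33.Coc S c) :
    ∃ κ, Cl dim κ ∧ ∀ T ⊆ S, Sub K T → (Tr T c ↔ Ex dim K κ T) := by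
  have C := h.cx
  choose b hb using fun i => (Lev33.cvx_ball (C.isBall i)).tr c (hc.mono (C.sub i))
  choose p hp using fun i => (C.isBall i).nonempty
  have key : ∀ i j m, m ≤ i → m ≤ j → ∀ x ∈ K m, ∀ y ∈ K m,
      (b i x).toAdd - (b j x).toAdd = (b i y).toAdd - (b j y).toAdd := by
    intro i j m hi hj x hx y hy
    rw [((hb j).mono (C.subset hj)).uniq ((hb i).mono (C.subset hi))
      (C.isBall m).isPreconnected hx hy]
    simp only [toAdd_mul, toAdd_inv]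
    abel
  have hφ : Pot dim (fun e => cob dim (fun v => (b e (p v)).toAdd) e)
      fun i v => (b i (p v)).toAdd := fun i e de hi => by
    obtain ⟨v, w, hne, hvw⟩ := two_vertices C de
    have lv := (hvw v).2 (Or.inl rfl)
    have lw := (hvw w).2 (Or.inr rfl)
    have := key i e e hi le_rfl _ (C.subset lv.le (hp v)) _ (C.subset lw.le (hp w))
    simp only [cob_eq C de lv lw hne]
    linear_combination zadd (b e (p w)).toAdd - zadd (b i (p w)).toAdd - this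
  refine ⟨_, h.cl_of_pot hφ, fun T hT hs => (tr_iff_triv C.isClosed
    (fun x hx => mem_iUnion.2 (C.cover x (hT hx))) (fun i => (hb i).mono inter_subset_left)
    fun i j x hi hj hx => ?_).trans (h.triv_iff hφ hT hs)⟩
  obtain ⟨m, hm⟩ := exists_carrier C (hT hx)
  obtain ⟨-, a, a'⟩ := vx_spec C i hm
  rw [dd, a' j]
  exact key i j m (C.opn_le hm hi) (C.opn_le hm hj) _ (C.subset a (hp _)) _ hm.1

/-- **edge cocycles give germ cocycles** -/
theorem SC.to_germ (h : SC S dS I dim K) {κ : I → ZMod 2} (hκ : Cl dim κ) :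
    ∃ c : E → E → Z2, Lev33.Coc S c ∧ ∀ T ⊆ S, Sub K T → (Tr T c ↔ Ex dim K κ T) := by
  obtain ⟨φ, hφ⟩ := h.exists_pot hκ
  obtain ⟨c, hc, h1⟩ := Lev33.coc_of_cech (h.coc hφ)
  exact ⟨c, hc, fun T hT hs => (h1 T hT).trans (h.triv_iff hφ hT hs)⟩

/-- a cocycle vanishes on the boundary -/
theorem SC.sum_bd (h : SC S dS I dim K) {κ : I → ZMod 2} (hκ : Cl dim κ) :
    ∑ e, ind {e | dim e = 1 ∧ K e ⊆ dS} e * κ e = 0 := by
  have h1 : ∀ e, ind {e | dim e = 1 ∧ K e ⊆ dS} e =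
      ∑ g, inc dim e g * ind {f | dim f = 2} g := fun e => by
    by_cases he : dim e = 1
    · rw [h.sum_ind he]
      by_cases a : K e ⊆ dS
      · simp [ind, he, a, (h.bds_all e he).2 a]
      · simp [ind, a, mt (h.bds_all e he).1 a]
    · rw [Finset.sum_eq_zero]
      · simp [ind, he]
      · intro g _
        by_cases a : dim g = 2
        · rw [inc, if_neg (fun b => he (by omega)), zero_mul]
        · simp [ind, a]
  simp only [h1, Finset.sum_mul]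
  rw [Finset.sum_comm]
  refine Finset.sum_eq_zero fun g _ => ?_
  by_cases a : dim g = 2
  · simpa [ind, a] using hκ g a
  · simp [ind, a]

/-- an edge circle that separates a closed surface bounds -/
theorem SC.nonsep (h : SC S ∅ I dim K) (hc : IsPreconnected S) {Γ : Set E} (hΓ : EC dim K Γ)
    (hn : ¬ ∃ Y ⊆ {f | dim f = 2}, Bds dim K Y Γ) : IsPreconnected (S \ Γ) := by
  have C := h.cx
  have off : ∀ i x, ¬ K i ⊆ Γ → Opn K i x → x ∈ S \ Γ := fun i x a hx =>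
    ⟨C.sub i hx.1, fun b => a (hΓ.sub C i x hx b)⟩
  have up : ∀ u v : Set E, IsOpen u → IsOpen v → S \ Γ ⊆ u ∪ v → ¬ (S \ Γ ∩ (u ∩ v)).Nonempty →
      ∀ j x y, ¬ K j ⊆ Γ → x ∈ K j → x ∈ u → Opn K j y → y ∈ u := by
    intro u v hu hv cov hd j x y a hx hxu hy
    obtain ⟨z, hz, hz'⟩ := opn_near C hx (hu.mem_nhds hxu)
    by_contra b
    obtain ⟨w, hw, c⟩ := preconnected_opn C j u v hu hv (fun w hw => cov (off j w a hw))
      ⟨z, hz', hz⟩ ⟨y, hy, (cov (off j y a hy)).resolve_left b⟩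
    exact hd ⟨w, off j w a hw, c⟩
  have nf : ∀ f, dim f = 2 → ¬ K f ⊆ Γ := fun f hf a => by
    have := dim_le_one C hΓ.circ a; omega
  intro u v hu hv cov ⟨x, hx, hxu⟩ ⟨y, hy, hyv⟩
  by_contra hd
  let Y : Set I := {f | dim f = 2 ∧ ∀ z, Opn K f z → z ∈ u}
  have inY : ∀ f, dim f = 2 → ∀ z ∈ K f, z ∈ u → f ∈ Y := fun f hf z hz a =>
    ⟨hf, fun w hw => up u v hu hv cov hd f z w (nf f hf) hz a hw⟩
  have outY : ∀ f, dim f = 2 → ∀ z ∈ K f, z ∈ v → f ∉ Y := fun f hf z hz a b => by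
    obtain ⟨w, hw⟩ := exists_opn_pt C f
    exact hd ⟨w, off f w (nf f hf) hw, b.2 w hw, up v u hv hu (by rwa [union_comm])
      (by rwa [inter_comm v]) f z w (nf f hf) hz a hw⟩
  have hZ : ∀ e, dim e = 1 → bdE Y e → K e ⊆ Γ := fun e he hb => by
    by_contra a
    obtain ⟨z, hz⟩ := exists_opn_pt C e
    rcases h.faces he with ⟨f, hf⟩ | ⟨f, f', hne, hf⟩
    · exact (h.bds_all e he).1 ((bdE_one hf).2 (h.dim_face he ((hf f).2 rfl))) hz.1
    · have l := (hf f).2 (Or.inl rfl)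
      have l' := (hf f').2 (Or.inr rfl)
      refine (bdE_two hne hf).1 hb ?_
      rcases cov (off e z a hz) with b | b
      · exact iff_of_true (inY f (h.dim_face he l) z (C.subset l.le hz.1) b)
          (inY f' (h.dim_face he l') z (C.subset l'.le hz.1) b)
      · exact iff_of_false (outY f (h.dim_face he l) z (C.subset l.le hz.1) b)
          (outY f' (h.dim_face he l') z (C.subset l'.le hz.1) b)
  obtain ⟨f, hf, hxf⟩ := h.exists_face hx.1
  obtain ⟨f', hf', hyf⟩ := h.exists_face hy.1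
  refine outY f' hf' y hyf hyv (h.all_or_none hc (fun e₀ d₀ b₀ => hn ⟨Y, fun _ a => a.1,
    fun e he => ⟨hZ e he, hΓ.minimal C hZ (fun v e hv he hve => h.no_free_end hv he hve) d₀ b₀ he⟩⟩)
    hf hf' (inY f hf x hxf hxu))

omit [Fintype I]

/-- cocycles on a sphere -/
theorem Sph.tr {G : Type*} [Group G] (h : Sph S) {c : E → E → G} (hc : Lev33.Coc S c) : Tr S c := by
  obtain ⟨e⟩ := h
  have hs : Gn_296.Hp 2 ⊆ sph 3 := fun _ a => a.1
  have hD := (Gn_296.ballPair_cube 2).ball₁.map (e.restrImage hs)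
  obtain ⟨B, hB, hu, hi⟩ := Ann83.compl_disc ⟨e⟩ hD ((image_mono hs).trans e.image_eq.subset)
  rw [← hu] at hc ⊢
  exact Tr.union (Lev33.IsClosed.relCl hD.isClosed _) (Lev33.IsClosed.relCl hB.isClosed _)
    ((Lev33.cvx_ball hD).tr c (hc.mono subset_union_left))
    ((Lev33.cvx_ball hB).tr c (hc.mono subset_union_right))
    (hi ▸ (circ_of_disc hD).isPreconnected)

variable [FiniteDimensional ℝ E]

/-- **NONSEP** -/
theorem Srf.nonsep {G : Type*} [Group G] (h : Srf S ∅) (hc : IsConnected S)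
    (hn : ∃ c : E → E → G, Lev33.Coc S c ∧ ¬ Tr S c) : ∃ Γ γ, Loop Γ γ ∧ Γ ⊆ S ∧
      IsPreconnected (S \ Γ) ∧ ∃ ω : E → E → Z2, Lev33.Coc S ω ∧ ¬ Tr Γ ω := by
  obtain ⟨Q, _, _, C, -, hC, -⟩ := h.exists_sc finite_empty (fun _ a => a.elim)
  have := Fintype.ofFinite Q
  obtain ⟨c, h1, h2⟩ := hn
  have := mt (fun a => (hC.sph hc a).tr h1) h2
  push Not at this
  obtain ⟨Γ, hΓ, hs, hb⟩ := this
  have hb' : ¬ ∃ Y ⊆ {f | C.dim f = 2}, Bds C.dim C.cell Y Γ := fun ⟨Y, a, b⟩ => hb Y a b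
  obtain ⟨κ, hκ, h0⟩ := hC.bounds_or.resolve_left hb'
  obtain ⟨ω, hω, h3⟩ := hC.to_germ hκ
  obtain ⟨γ, hγ⟩ := hΓ.circ.loop
  exact ⟨Γ, γ, hγ, hs, hC.nonsep hc.isPreconnected hΓ hb', ω, hω,
    fun a => h0 (hΓ.sum_ex hC.cx ((h3 Γ hs (hΓ.sub hC.cx)).1 a))⟩

/-- **BDSUM** -/
theorem Srf.bdsum {G₁ G₂ : Set E} (h : Srf S (G₁ ∪ G₂)) (hd : Disjoint G₁ G₂) (c₁ : Circ G₁)
    (c₂ : Circ G₂) {c : E → E → Z2} (hc : Lev33.Coc S c) (h1 : Tr G₁ c) : Tr G₂ c := by
  obtain ⟨Q, _, _, C, -, hC, hs⟩ := h.exists_sc (𝒜 := {G₁, G₂}) (toFinite _)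
    (by rintro _ (rfl | rfl); exacts [c₁.poly, c₂.poly])
  have := Fintype.ofFinite Q
  have s₁ : G₁ ⊆ S := subset_union_left.trans h.sub
  have s₂ : G₂ ⊆ S := subset_union_right.trans h.sub
  have u₁ := hs G₁ (Or.inl rfl)
  have u₂ := hs G₂ (Or.inr rfl)
  obtain ⟨κ, hκ, h2⟩ := hC.of_germ hc
  refine (h2 G₂ s₂ u₂).2 ((ec_of_sub hC.cx c₂ s₂ u₂).ex hC.cx ?_)
  have a1 := (ec_of_sub hC.cx c₁ s₁ u₁).sum_ex hC.cx ((h2 G₁ s₁ u₁).1 h1)
  rw [← hC.sum_bd hκ, ← zero_add (∑ _, _), ← a1, ← Finset.sum_add_distrib]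
  refine Finset.sum_congr rfl fun e _ => ?_
  have h3 := sub_union_iff hC.cx u₁ u₂ (i := e)
  have h4 : ¬ (C.cell e ⊆ G₁ ∧ C.cell e ⊆ G₂) := fun a =>
    let ⟨_, hx⟩ := (hC.cx.isBall e).nonempty
    disjoint_left.1 hd (a.1 hx) (a.2 hx)
  rw [← add_mul]
  congr 1
  by_cases d : C.dim e = 1 <;> by_cases b₁ : C.cell e ⊆ G₁ <;> by_cases b₂ : C.cell e ⊆ G₂ <;>
    simp [ind, d, h3, b₁, b₂] at h4 ⊢

end Crest.Agent.X212.Srf12
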