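import Crest.Agent.X212.Srf12.Hom

/-!
# X212 / SURF (helper12): recognition of spheres and discs
-/

set_option autoImplicit false

open Set Metric Topology Module

namespace Crest.Agent.X212.Srf12

open Crest.Agent.R096 Crest.Agent.R096.Ce_537 Crest.Agent.R096.Cb_609 Crest.Agent.R096.Coh_184

variable {E : Type*} [NormedAddCommGroup E] [NormedSpace ℝ E]
  {S dS : Set E} {I : Type*} [PartialOrder I] {dim : I → ℕ} {K : I → Set E}

theorem isClosed_car [Finite I] (C : Cplx S I dim K) (X : Set I) : IsClosed (car K X) :=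
  (toFinite _).isClosed_biUnion fun i _ => C.isClosed i

theorem car_subset (C : Cplx S I dim K) (X : Set I) : car K X ⊆ S :=
  iUnion₂_subset fun i _ => C.sub i

theorem SC.exists_face (h : SC S dS I dim K) {x : E} (hx : x ∈ S) : ∃ f, dim f = 2 ∧ x ∈ K f := by
  obtain ⟨i, hi⟩ := h.cx.cover x hx
  obtain ⟨f, hf, hif⟩ := h.pure i
  exact ⟨f, hf, h.cx.subset hif hi⟩

theorem SC.car_all (h : SC S dS I dim K) : car K {f | dim f = 2} = S :=
  (car_subset h.cx _).antisymm fun _ hx =>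
    let ⟨f, hf, hxf⟩ := h.exists_face hx
    mem_biUnion (show f ∈ {f | dim f = 2} from hf) hxf

/-- a set of faces without boundary is empty or everything -/
theorem SC.all_or_none [Finite I] (h : SC S dS I dim K) (hc : IsPreconnected S) {X : Set I}
    (hX : ∀ e, dim e = 1 → ¬ bdE X e) {f f' : I} (d : dim f = 2) (d' : dim f' = 2) (hf : f ∈ X) :
    f' ∈ X := by
  by_contra hn
  obtain ⟨y, -, hA, hB⟩ := isPreconnected_closed_iff.1 hc
    (car K {g | dim g = 2 ∧ g ∈ X}) (car K {g | dim g = 2 ∧ g ∉ X})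
    (isClosed_car h.cx _) (isClosed_car h.cx _)
    (fun y hy => by
      obtain ⟨g, hg, hyg⟩ := h.exists_face hy
      by_cases cg : g ∈ X
      · exact Or.inl (mem_biUnion (show g ∈ {g | dim g = 2 ∧ g ∈ X} from ⟨hg, cg⟩) hyg)
      · exact Or.inr (mem_biUnion (show g ∈ {g | dim g = 2 ∧ g ∉ X} from ⟨hg, cg⟩) hyg))
    ((h.cx.isBall f).nonempty.mono (subset_inter (h.cx.sub f)
      (subset_biUnion_of_mem (u := K) (show f ∈ {g | dim g = 2 ∧ g ∈ X} from ⟨d, hf⟩))))
    ((h.cx.isBall f').nonempty.mono (subset_inter (h.cx.sub f')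
      (subset_biUnion_of_mem (u := K) (show f' ∈ {g | dim g = 2 ∧ g ∉ X} from ⟨d', hn⟩))))
  obtain ⟨g, ⟨dg, pg⟩, hg⟩ := mem_iUnion₂.1 hA
  obtain ⟨g', ⟨dg', pg'⟩, hg'⟩ := mem_iUnion₂.1 hB
  exact h.mem_bd (Γ := ∅) (fun e he => ⟨fun a => absurd a (hX e he), fun a =>
    absurd ((h.cx.isBall e).nonempty.mono a) not_nonempty_empty⟩) dg dg' pg pg' hg hg'

/-- all faces are bounded by the boundary -/
theorem SC.bds_all (h : SC S dS I dim K) : Bds dim K {f | dim f = 2} dS := by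
  intro e he
  constructor
  · rintro ⟨f, -, hf, hu⟩ x hx
    exact (h.bd x).2 ⟨e, f, he, hx, hf, fun f' hf' => hu f' (h.dim_face he hf') hf'⟩
  · intro hs
    obtain ⟨x, hx⟩ := exists_opn_pt h.cx e
    obtain ⟨e', f, he', hxe, hf, hu⟩ := (h.bd x).1 (hs hx.1)
    obtain rfl := eq_of_le h.cx (h.cx.opn_le hx hxe) (by omega)
    exact ⟨f, h.dim_face he hf, hf, fun g _ hg => hu g hg⟩

theorem SC.bd_cov (h : SC S dS I dim K) {x : E} (hx : x ∈ dS) :
    ∃ e, dim e = 1 ∧ K e ⊆ dS ∧ x ∈ K e := by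
  obtain ⟨e, f, he, hxe, hf, hu⟩ := (h.bd x).1 hx
  exact ⟨e, he, fun y hy => (h.bd y).2 ⟨e, f, he, hy, hf, hu⟩, hxe⟩

theorem bds_face (C : Cplx S I dim K) (f : I) : Bds dim K {f} (⋃ j ∈ {j | j < f}, K j) := by
  intro e _
  rw [sub_face_iff C]
  exact ⟨fun ⟨g, hg, h1, _⟩ => hg ▸ h1, fun h1 => ⟨f, rfl, h1, fun _ hg _ => hg⟩⟩

/-- the complementary set of faces of a closed surface -/
theorem SC.bds_compl (h : SC S ∅ I dim K) {Y : Set I} {Γ : Set E} (hY : Bds dim K Y Γ) :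
    Bds dim K (symmDiff Y {f | dim f = 2}) Γ := by
  intro e he
  have : ¬ K e ⊆ ∅ := fun a => absurd ((h.cx.isBall e).nonempty.mono a) not_nonempty_empty
  rw [h.bdE_symmDiff he, h.bds_all e he, hY e he]
  tauto

variable [FiniteDimensional ℝ E]

/-- a closed connected surface on which every edge circle bounds is a sphere -/
theorem SC.sph [Finite I] (h : SC S ∅ I dim K) (hc : IsConnected S)
    (hb : ∀ Γ, EC dim K Γ → Γ ⊆ S → ∃ Y ⊆ {f | dim f = 2}, Bds dim K Y Γ) : Sph S := by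
  obtain ⟨x, hx⟩ := hc.nonempty
  obtain ⟨f₀, d₀, -⟩ := h.exists_face hx
  have hU : symmDiff {f₀} {f | dim f = 2} = {f | dim f = 2 ∧ f ≠ f₀} := by
    ext f
    simp only [mem_symmDiff, mem_singleton_iff, mem_ofPred_eq]
    constructor
    · rintro (⟨rfl, a⟩ | a)
      exacts [absurd d₀ a, a]
    · exact Or.inr
  have hB := h.bds_compl (bds_face h.cx f₀)
  rw [hU] at hB
  have hD := h.disc (U := {f | dim f = 2 ∧ f ≠ f₀}) (fun _ hf => hf.1)
    (fun X hX hn => eq_empty_of_forall_notMem fun f hf =>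
      (hX (h.all_or_none hc.isPreconnected hn (hX hf).1 d₀ hf)).2 rfl)
    (fun Γ hΓ hs => by
      obtain ⟨Y, hY, hYb⟩ := hb Γ hΓ (hs.trans (car_subset h.cx _))
      by_cases a : f₀ ∈ Y
      · refine ⟨_, fun f hf => ?_, h.bds_compl hYb⟩
        rcases hf with ⟨b, c⟩ | ⟨b, c⟩
        · exact absurd (hY b) c
        · exact ⟨b, fun e => c (e ▸ a)⟩
      · exact ⟨Y, fun f hf => ⟨hY hf, fun e => a (e ▸ hf)⟩, hYb⟩)
    Subset.rfl (ec_face h.cx d₀) hB
  have hu : K f₀ ∪ car K {f | dim f = 2 ∧ f ≠ f₀} = S := by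
    refine (union_subset (h.cx.sub _) (car_subset h.cx _)).antisymm fun y hy => ?_
    obtain ⟨f, hf, hyf⟩ := h.exists_face hy
    by_cases a : f = f₀
    · exact Or.inl (a ▸ hyf)
    · exact Or.inr (mem_biUnion (show f ∈ {f | dim f = 2 ∧ f ≠ f₀} from ⟨hf, a⟩) hyf)
  have := Glu_422.sphere_union (face_ball h.cx d₀) hD (Subset.antisymm (fun y hy => by
    obtain ⟨f, hf, hyf⟩ := mem_iUnion₂.1 hy.2
    exact h.mem_bd hB hf.1 d₀ hf (fun a => a.2 rfl) hyf hy.1)
    (subset_inter (face_ball h.cx d₀).subset hD.subset))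
  rwa [hu] at this

omit [FiniteDimensional ℝ E] in
theorem SC.ec_bd (h : SC S dS I dim K) (hΓ : Circ dS) : EC dim K dS := ⟨hΓ, fun _ => h.bd_cov⟩

/-- a connected surface bounded by one circle on which every edge circle bounds is a disc -/
theorem SC.ball [Finite I] (h : SC S dS I dim K) (hc : IsPreconnected S) (hΓ : Circ dS)
    (hb : ∀ Γ, EC dim K Γ → Γ ⊆ S → ∃ Y ⊆ {f | dim f = 2}, Bds dim K Y Γ) : IsBall 2 S dS := by
  have := h.disc (U := {f | dim f = 2}) (fun _ hf => hf)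
    (fun X hX hn => eq_empty_of_forall_notMem fun f hf => by
      obtain ⟨x, hx⟩ := hΓ.nonempty
      obtain ⟨e, he, hs, -⟩ := h.bd_cov hx
      have : X = {f | dim f = 2} := hX.antisymm fun g hg => h.all_or_none hc hn (hX hf) hg hf
      exact hn e he (this ▸ (h.bds_all e he).2 hs))
    (fun Γ hΓ hs => hb Γ hΓ (hs.trans (car_subset h.cx _))) Subset.rfl (h.ec_bd hΓ) h.bds_all
  rwa [h.car_all] at this

/-- **SPH** -/
theorem Srf.sph (h : Srf S ∅) (hc : IsConnected S) (h1 : H1 S) : Sph S := by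
  obtain ⟨Q, _, _, C, -, hC, -⟩ := h.exists_sc finite_empty (fun _ a => a.elim)
  have := Fintype.ofFinite Q
  exact hC.sph hc fun Γ => hC.bounds (hC.ex_of_H1 h1)

/-- **DISC** -/
theorem Srf.ball (h : Srf S dS) (hc : IsPreconnected S) (hΓ : Circ dS) (h1 : H1 S) :
    IsBall 2 S dS := by
  obtain ⟨Q, _, _, C, -, hC, -⟩ := h.exists_sc finite_empty (fun _ a => a.elim)
  have := Fintype.ofFinite Q
  exact hC.ball hc hΓ fun Γ => hC.bounds (hC.ex_of_H1 h1)

end Crest.Agent.X212.Srf12
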