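import Crest.Agent.X212.Srf12.Pol

/-!
# X212 / SURF (helper12): PL circles and arcs in a complex
-/

set_option autoImplicit false

open Set Metric Topology Module

namespace Crest.Agent.X212.Srf12

open Crest.Agent.R096 Crest.Agent.R096.Ce_537 Crest.Agent.R096.Cb_609

variable {E : Type*} [NormedAddCommGroup E] [NormedSpace ℝ E]

theorem circ_of_disc {D Γ : Set E} (h : IsBall 2 D Γ) : Circ Γ := Glu_422.sphere_of_ball h

theorem Circ.map {F : Type*} [NormedAddCommGroup F] [NormedSpace ℝ F] {Γ : Set E} {Γ' : Set F}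
    (h : Circ Γ) (e : PLEquiv Γ Γ') : Circ Γ' := h.elim fun a => ⟨a.trans e⟩

theorem circ_iff_S1 {Γ : Set E} : Circ Γ ↔ Nonempty (PLEquiv (Pl.S1 ℝ) Γ) := by
  obtain ⟨m⟩ := circle_of_disc (isBall_cube 2)
  exact ⟨fun ⟨a⟩ => ⟨m.trans a⟩, fun ⟨a⟩ => ⟨m.symm.trans a⟩⟩

theorem Circ.isCompact {Γ : Set E} (h : Circ Γ) : IsCompact Γ :=
  h.elim fun a => a.image_eq ▸ (isCompact_sphere _ _).image_of_continuousOn a.pf.1

theorem Circ.isClosed {Γ : Set E} (h : Circ Γ) : IsClosed Γ := h.isCompact.isClosed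

theorem Circ.isPreconnected {Γ : Set E} (h : Circ Γ) : IsPreconnected Γ :=
  h.elim fun a => a.image_eq ▸
    (isPreconnected_sphere (by rw [← finrank_eq_rank]; simp) _ _).image _ a.pf.1

theorem Circ.nonempty {Γ : Set E} (h : Circ Γ) : Γ.Nonempty :=
  h.elim fun a => ⟨_, a.mf (show (fun _ => 1 : Fin 2 → ℝ) ∈ sph 2 by simp [sph, pi_norm_const])⟩

theorem Circ.perfect {Γ : Set E} (h : Circ Γ) {x : E} (hx : x ∈ Γ) {O : Set E}
    (hO : O ∈ 𝓝 x) : ∃ y ∈ O, y ∈ Γ ∧ y ≠ x := by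
  obtain ⟨a⟩ := h
  have h1 : a.f ⁻¹' O ∈ 𝓝[sph 2] (a.g x) :=
    (a.pf.1 _ (a.mg hx)).preimage_mem_nhdsWithin (by rw [a.ri x hx]; exact hO)
  obtain ⟨U, hU, hxU, hUO⟩ := mem_nhdsWithin.1 h1
  obtain ⟨y, hyU, hy, hne⟩ := rim_perfect (isBall_cube 2) (a.mg hx) (hU.mem_nhds hxU)
  exact ⟨a.f y, hUO ⟨hyU, hy⟩, a.mf hy, fun e => hne (by rw [← e, a.li y hy])⟩

theorem Circ.compl_arc {Γ A Q : Set E} (h : Circ Γ) (hA : IsBall 1 A Q) (hs : A ⊆ Γ) :
    ∃ B, IsBall 1 B Q ∧ A ∪ B = Γ ∧ A ∩ B = Q := Glu_422.compl_one.sphere h hA hs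

theorem circ_union {A B Q : Set E} (hA : IsBall 1 A Q) (hB : IsBall 1 B Q) (h : A ∩ B = Q) :
    Circ (A ∪ B) := Glu_422.sphere_union hA hB h

theorem Circ.two_marks {Γ : Set E} (h : Circ Γ) {p q : E} (hp : p ∈ Γ) (hq : q ∈ Γ)
    (hne : p ≠ q) : ∃ A B, IsBall 1 A {p, q} ∧ IsBall 1 B {p, q} ∧ A ∪ B = Γ ∧ A ∩ B = {p, q} := by
  obtain ⟨a⟩ := h
  obtain ⟨A, B, hAB, hu⟩ := Cb_609.two_marks (isBall_cube 2) (a.mg hp) (a.mg hq)
    fun e => hne (a.symm.injOn hp hq e)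
  have hA : A ⊆ sph 2 := hu ▸ subset_union_left
  have h1 := hAB.ball₁.map (a.restrImage hA)
  have h2 : (a.restrImage hA).f '' {a.g p, a.g q} = {p, q} := by
    show a.f '' _ = _
    rw [image_pair, a.ri p hp, a.ri q hq]
  rw [h2] at h1
  obtain ⟨B', hB', h3, h4⟩ := Circ.compl_arc ⟨a⟩ h1 (by rintro _ ⟨x, hx, rfl⟩; exact a.mf (hA hx))
  exact ⟨_, B', h1, hB', h3, h4⟩

/-- the parameter on an arc, measured from an end point -/
theorem arc_param {B : Set E} {p q : E} (h : IsBall 1 B {p, q}) :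
    ∃ s : E → ℝ, ContinuousOn s B ∧ InjOn s B ∧ s p = 0 ∧ ∀ x ∈ B, 0 ≤ s x := by
  obtain ⟨a, ha⟩ := h
  have hp : p ∈ a.f '' sph 1 := by rw [ha]; exact Or.inl rfl
  obtain ⟨w, hw, rfl⟩ := hp
  have hb : ∀ x ∈ B, |a.g x 0| ≤ 1 := fun x hx => by
    have := a.mg hx
    rwa [mem_closedBall_zero_iff, norm_fin_one] at this
  have hi : ∀ x ∈ B, ∀ y ∈ B, a.g x 0 = a.g y 0 → x = y := fun x hx y hy e =>
    a.symm.injOn hx hy (funext fun i => by rw [Subsingleton.elim i 0]; exact e)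
  have hc : ContinuousOn (fun x => a.g x 0) B := (continuous_apply 0).comp_continuousOn a.pg.1
  have hl := a.li w (sph_subset_cube hw)
  rw [sph_one] at hw
  rcases hw with rfl | rfl
  · refine ⟨fun x => a.g x 0 + 1, hc.add continuousOn_const,
      fun x hx y hy e => hi x hx y hy (by simpa using e), by simp [hl], fun x hx => ?_⟩
    have := abs_le.1 (hb x hx)
    simp only; linarith
  · refine ⟨fun x => 1 - a.g x 0, continuousOn_const.sub hc,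
      fun x hx y hy e => hi x hx y hy (by simpa using e), by simp [hl], fun x hx => ?_⟩
    have := abs_le.1 (hb x hx)
    simp only; linarith

/-- two connected sets starting at an end point of an arc overlap -/
theorem arc_overlap {B X Y : Set E} {p q : E} (h : IsBall 1 B {p, q}) (hX : X ⊆ B) (hY : Y ⊆ B)
    (cX : IsPreconnected X) (cY : IsPreconnected Y) (pX : p ∈ X) (pY : p ∈ Y)
    (nX : ∃ x ∈ X, x ≠ p) (nY : ∃ y ∈ Y, y ≠ p) : (X ∩ Y).Infinite := by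
  obtain ⟨s, hc, hi, h0, hn⟩ := arc_param h
  obtain ⟨x, hx, hxp⟩ := nX
  obtain ⟨y, hy, hyp⟩ := nY
  have x0 : 0 < s x := lt_of_le_of_ne (hn x (hX hx)) fun e =>
    hxp (hi (hX hx) (hX pX) (by rw [h0, ← e]))
  have y0 : 0 < s y := lt_of_le_of_ne (hn y (hY hy)) fun e =>
    hyp (hi (hY hy) (hX pX) (by rw [h0, ← e]))
  have iX := (cX.image s (hc.mono hX)).Icc_subset ⟨p, pX, h0⟩ ⟨x, hx, rfl⟩
  have iY := (cY.image s (hc.mono hY)).Icc_subset ⟨p, pY, h0⟩ ⟨y, hy, rfl⟩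
  refine Infinite.of_image s ((Icc_infinite (lt_min x0 y0)).mono fun u hu => ?_)
  obtain ⟨a, ha, ea⟩ := iX ⟨hu.1, hu.2.trans (min_le_left _ _)⟩
  obtain ⟨b, hb, eb⟩ := iY ⟨hu.1, hu.2.trans (min_le_right _ _)⟩
  have : a = b := hi (hX ha) (hY hb) (ea.trans eb.symm)
  exact ⟨a, ⟨ha, this ▸ hb⟩, ea⟩

/-- a maximal sub-arc off a closed set -/
theorem exists_gap [FiniteDimensional ℝ E] {γ T : Set E} {p q x : E} (h : IsBall 1 γ {p, q})
    (hT : IsClosed T) (hp : p ∈ T) (hq : q ∈ T) (hx : x ∈ γ) (hxT : x ∉ T) :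
    ∃ α p' q', IsBall 1 α {p', q'} ∧ α ⊆ γ ∧ x ∈ α ∧ α ∩ T = {p', q'} := by
  obtain ⟨a, ha⟩ := h
  let c : ℝ → Fin 1 → ℝ := fun t _ => t
  have hcm : ∀ t, t ∈ Icc (-1 : ℝ) 1 → c t ∈ cube 1 := fun t ht => by
    rw [cube, mem_closedBall_zero_iff, norm_fin_one]; exact abs_le.2 ht
  have hcc : Continuous c := continuous_pi fun _ => continuous_id
  let Z : Set ℝ := Icc (-1 : ℝ) 1 ∩ (fun t => a.f (c t)) ⁻¹' T
  have hZ : IsClosed Z :=
    (a.pf.1.comp hcc.continuousOn hcm).preimage_isClosed_of_isClosed isClosed_Icc hT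
  have hend : ∀ w ∈ sph 1, a.f w ∈ T := fun w hw => by
    have : a.f w ∈ ({p, q} : Set E) := ha ▸ ⟨w, hw, rfl⟩
    rcases this with e | e <;> rw [e] <;> assumption
  have m1 : (-1 : ℝ) ∈ Z := ⟨by norm_num, hend _ (by rw [sph_one]; exact Or.inl rfl)⟩
  have p1 : (1 : ℝ) ∈ Z := ⟨by norm_num, hend _ (by rw [sph_one]; exact Or.inr rfl)⟩
  let t0 := a.g x 0
  have e0 : c t0 = a.g x := funext fun i => by rw [Subsingleton.elim i 0]
  have ht0 : t0 ∈ Icc (-1 : ℝ) 1 := by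
    have := a.mg hx
    rw [mem_closedBall_zero_iff, norm_fin_one] at this
    exact abs_le.1 this
  have hx0 : a.f (c t0) = x := by rw [e0, a.ri x hx]
  have n0 : t0 ∉ Z := fun h => hxT (hx0 ▸ h.2)
  have bl : BddAbove (Z ∩ Iic t0) := ⟨t0, fun _ h => h.2⟩
  have bu : BddBelow (Z ∩ Ici t0) := ⟨t0, fun _ h => h.2⟩
  have hl := (hZ.inter isClosed_Iic).csSup_mem ⟨-1, m1, ht0.1⟩ bl
  have hu := (hZ.inter isClosed_Ici).csInf_mem ⟨1, p1, ht0.2⟩ bu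
  set l := sSup (Z ∩ Iic t0)
  set u := sInf (Z ∩ Ici t0)
  have l0 : l < t0 := lt_of_le_of_ne hl.2 fun e => n0 (e ▸ hl.1)
  have u0 : t0 < u := lt_of_le_of_ne hu.2 fun e => n0 (e ▸ hu.1)
  have hseg : segment ℝ (c l) (c u) = c '' Icc l u := by
    rw [← segment_eq_Icc (l0.trans u0).le]
    exact (image_segment ℝ (LinearMap.pi fun _ : Fin 1 => (LinearMap.id : ℝ →ₗ[ℝ] ℝ)).toAffineMap
      l u).symm
  have hI : Icc l u ⊆ Icc (-1 : ℝ) 1 := Icc_subset_Icc hl.1.1.1 hu.1.1.2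
  have hsub : segment ℝ (c l) (c u) ⊆ cube 1 := by
    rw [hseg]; rintro _ ⟨t, ht, rfl⟩; exact hcm t (hI ht)
  have hb := (isBall_segment (a := c l) (b := c u)
    fun e => (l0.trans u0).ne (congrFun e 0)).map (a.restrImage hsub)
  refine ⟨a.f '' segment ℝ (c l) (c u), a.f (c l), a.f (c u), ?_, ?_, ?_, ?_⟩
  · rw [← image_pair]; exact hb
  · rintro _ ⟨w, hw, rfl⟩; exact a.mf (hsub hw)
  · rw [hseg]; exact ⟨_, ⟨t0, ⟨l0.le, u0.le⟩, rfl⟩, hx0⟩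
  · rw [hseg]
    ext y
    constructor
    · rintro ⟨⟨_, ⟨t, ht, rfl⟩, rfl⟩, hy⟩
      rcases le_total t t0 with h | h
      · left; rw [le_antisymm (le_csSup bl ⟨⟨hI ht, hy⟩, h⟩) ht.1]
      · right
        rw [mem_singleton_iff, le_antisymm ht.2 (csInf_le bu ⟨⟨hI ht, hy⟩, h⟩)]
    · rintro (rfl | rfl)
      · exact ⟨⟨_, ⟨l, ⟨le_rfl, (l0.trans u0).le⟩, rfl⟩, rfl⟩, hl.1.2⟩
      · exact ⟨⟨_, ⟨u, ⟨(l0.trans u0).le, le_rfl⟩, rfl⟩, rfl⟩, hu.1.2⟩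

variable {S : Set E} {I : Type*} [PartialOrder I] {dim : I → ℕ} {K : I → Set E}

theorem preconnected_opn (C : Cplx S I dim K) (i : I) : IsPreconnected {x | Opn K i x} := by
  have : {x | Opn K i x} = K i \ ⋃ j ∈ {j | j < i}, K j := by ext x; exact opn_iff i x
  rw [this]; exact (C.isBall i).isPreconnected_diff

theorem subset_of_opn (C : Cplx S I dim K) {i : I} {A : Set E} (hA : IsClosed A)
    (h : ∀ x, Opn K i x → x ∈ A) : K i ⊆ A := by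
  rw [← (C.isBall i).closure_diff]
  exact closure_minimal (fun x hx => h x ((opn_iff i x).2 hx)) hA

theorem sub_of_split (C : Cplx S I dim K) {A B : Set E} (hA : IsClosed A) (hB : IsClosed B)
    (h : Sub K (A ∪ B)) (hi : Sub K (A ∩ B)) : Sub K A := by
  intro i x hx hxA
  by_cases h1 : ∃ y, Opn K i y ∧ y ∈ A ∩ B
  · obtain ⟨y, hy, hy'⟩ := h1
    exact (hi i y hy hy').trans inter_subset_left
  · refine subset_of_opn C hA fun y hy => by_contra fun hyA => h1 ?_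
    have hc := h i x hx (Or.inl hxA)
    obtain ⟨z, hz, hz'⟩ := isPreconnected_closed_iff.1 (preconnected_opn C i) A B hA hB
      (fun z hz => hc hz.1) ⟨x, hx, hxA⟩ ⟨y, hy, (hc hy.1).resolve_left hyA⟩
    exact ⟨z, hz, hz'⟩

theorem edge_not_sub (C : Cplx S I dim K) {e : I} (he : dim e = 1) {T : Set E} (hT : T.Finite) :
    ¬ K e ⊆ T := by
  intro h
  obtain ⟨p, q, hne, hA, -⟩ := edge_ball C he
  have := arc_overlap hA Subset.rfl Subset.rfl hA.isPreconnected hA.isPreconnected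
    (hA.subset (Or.inl rfl)) (hA.subset (Or.inl rfl)) ⟨q, hA.subset (Or.inr rfl), hne.symm⟩
    ⟨q, hA.subset (Or.inr rfl), hne.symm⟩
  rw [inter_self] at this
  exact this (hT.subset h)

theorem edge_inter (C : Cplx S I dim K) {e e' : I} (he : dim e = 1) (he' : dim e' = 1)
    (hne : e ≠ e') {x : E} (hx : x ∈ K e) (hx' : x ∈ K e') :
    ∃ v, dim v = 0 ∧ v < e ∧ v < e' ∧ x ∈ K v := by
  obtain ⟨m, m1, m2, hm⟩ := C.mem_inter hx hx'
  have h1 : m ≠ e := by rintro rfl; exact hne (eq_of_le C m2 (by omega))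
  have h2 := C.mono _ _ (lt_of_le_of_ne m1 h1)
  exact ⟨m, by omega, lt_of_le_of_ne m1 h1, lt_of_le C.mono m2 (by omega), hm⟩

/-- a circle which is a union of edges -/
structure EC (dim : I → ℕ) (K : I → Set E) (Γ : Set E) : Prop where
  circ : Circ Γ
  cov : ∀ x ∈ Γ, ∃ e, dim e = 1 ∧ K e ⊆ Γ ∧ x ∈ K e

theorem EC.sub (C : Cplx S I dim K) {Γ : Set E} (h : EC dim K Γ) : Sub K Γ := by
  intro i x hx hxΓ
  obtain ⟨e, -, he, hxe⟩ := h.cov x hxΓ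
  exact (C.subset (C.opn_le hx hxe)).trans he

theorem dim_le_one (C : Cplx S I dim K) {Γ : Set E} (h : Circ Γ) {i : I} (hi : K i ⊆ Γ) :
    dim i ≤ 1 := by
  by_contra hd
  obtain ⟨a, -⟩ := C.isBall i
  obtain ⟨p, hp⟩ := h.nonempty
  obtain ⟨q, -, hq, hne⟩ := h.perfect hp Filter.univ_mem
  obtain ⟨A, B, hA, hB, hu, -⟩ := h.two_marks hp hq hne.symm
  have key : ∀ A Q, IsBall 1 A Q → interior (cube (dim i) ∩ a.f ⁻¹' A) = ∅ := by
    rintro A Q ⟨b, -⟩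
    by_contra hne
    have hs : interior (cube (dim i) ∩ a.f ⁻¹' A) ⊆ cube (dim i) :=
      fun u hu => (interior_subset hu).1
    have hm : MapsTo a.f (interior (cube (dim i) ∩ a.f ⁻¹' A)) A :=
      fun u hu => (interior_subset hu).2
    exact no_inj (k := dim i) (m := 1) (by omega) isOpen_interior (nonempty_iff_ne_empty.2 hne)
      (g := fun u => b.g (a.f u)) (b.pg.1.comp (a.pf.1.mono hs) hm)
      fun u hu v hv e => a.injOn (hs hu) (hs hv) (b.symm.injOn (hm hu) (hm hv) e)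
  have h1 := interior_union_isClosed_of_interior_empty
    (a.pf.1.preimage_isClosed_of_isClosed isClosed_closedBall hA.isClosed) (key B _ hB)
  rw [key A _ hA, ← inter_union_distrib_left, ← preimage_union, hu,
    inter_eq_left.2 (show cube (dim i) ⊆ a.f ⁻¹' Γ from fun u hu => hi (a.mf hu)),
    interior_closedBall _ one_ne_zero] at h1
  exact (nonempty_ball.2 one_pos).ne_empty h1

theorem ec_of_sub [Finite I] (C : Cplx S I dim K) {Γ : Set E} (h : Circ Γ) (hs : Γ ⊆ S)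
    (hsub : Sub K Γ) : EC dim K Γ := by
  refine ⟨h, fun x hx => ?_⟩
  obtain ⟨O, hO, hxO, hnear⟩ := exists_near C x
  obtain ⟨y, hyO, hy, hne⟩ := h.perfect hx (hO.mem_nhds hxO)
  obtain ⟨m, hm⟩ := exists_carrier C (hs hy)
  have h1 := hsub m y hm hy
  have h2 := dim_le_one C h h1
  have h3 := hnear m y hyO hm.1
  refine ⟨m, ?_, h1, h3⟩
  by_contra h4
  obtain ⟨p, hp⟩ := vertex_eq C (v := m) (by omega)
  have h5 := hm.1
  rw [hp] at h5 h3
  exact hne (h5.trans h3.symm)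

theorem ec_face [Finite I] (C : Cplx S I dim K) {f : I} (hf : dim f = 2) :
    EC dim K (⋃ j ∈ {j | j < f}, K j) :=
  ec_of_sub C (circ_of_disc (face_ball C hf)) ((face_ball C hf).subset.trans (C.sub f))
    (sub_cells C _)

theorem sub_face_iff (C : Cplx S I dim K) {f i : I} : K i ⊆ ⋃ j ∈ {j | j < f}, K j ↔ i < f := by
  refine ⟨fun h => ?_, fun h => subset_biUnion_of_mem (u := K) (show i ∈ {j | j < f} from h)⟩
  obtain ⟨x, hx⟩ := exists_opn_pt C i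
  obtain ⟨j, hj, hxj⟩ := mem_iUnion₂.1 (h hx.1)
  exact lt_of_le_of_lt (C.opn_le hx hxj) hj

theorem mem_ends (C : Cplx S I dim K) {v e : I} (h : v < e) {x : E} (hx : x ∈ K v) {p q : E}
    (hpq : ⋃ j ∈ {j | j < e}, K j = {p, q}) : x = p ∨ x = q := by
  have : x ∈ ({p, q} : Set E) := hpq ▸ mem_biUnion (show v ∈ {j | j < e} from h) hx
  have _ := C
  exact this

/-- an edge seen from one of its vertices -/
theorem edge_from (C : Cplx S I dim K) {v e : I} (he : dim e = 1) (h : v < e) {p : E}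
    (hp : p ∈ K v) : ∃ q, p ≠ q ∧ IsBall 1 (K e) {p, q} ∧ ⋃ j ∈ {j | j < e}, K j = {p, q} := by
  obtain ⟨a, b, hne, hA, hab⟩ := edge_ball C he
  rcases mem_ends C h hp hab with rfl | rfl
  · exact ⟨b, hne, hA, hab⟩
  · exact ⟨a, hne.symm, pair_comm a p ▸ hA, pair_comm a p ▸ hab⟩

theorem EC.exists_other [Finite I] (C : Cplx S I dim K) {Γ : Set E} (h : EC dim K Γ) {v e : I}
    (hv : dim v = 0) (he : dim e = 1) (hve : v < e) (heΓ : K e ⊆ Γ) :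
    ∃ e', dim e' = 1 ∧ v < e' ∧ K e' ⊆ Γ ∧ e' ≠ e := by
  obtain ⟨p, hp⟩ := (C.isBall v).nonempty
  obtain ⟨q, -, hA, -⟩ := edge_from C he hve hp
  obtain ⟨B, hB, hu, hi⟩ := h.circ.compl_arc hA heΓ
  obtain ⟨O, hO, hpO, hnear⟩ := exists_near C p
  have h1 : p ∈ closure (B \ {p, q}) := by rw [hB.closure_diff]; exact hB.subset (Or.inl rfl)
  obtain ⟨y, hyO, hyB, hy⟩ := mem_closure_iff_nhds.1 h1 O (hO.mem_nhds hpO)
  obtain ⟨e', he', hs, hye⟩ := h.cov y (hu ▸ Or.inr hyB)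
  refine ⟨e', he', lt_of_le C.mono (C.opn_le (opn_vertex C hv hp) (hnear e' y hyO hye))
    (by omega), hs, ?_⟩
  rintro rfl
  exact hy (hi ▸ ⟨hye, hyB⟩)

theorem EC.no_three (C : Cplx S I dim K) {Γ : Set E} (h : Circ Γ) {v e₁ e₂ e₃ : I}
    (d₁ : dim e₁ = 1) (d₂ : dim e₂ = 1) (d₃ : dim e₃ = 1) (v₁ : v < e₁) (v₂ : v < e₂)
    (v₃ : v < e₃) (s₁ : K e₁ ⊆ Γ) (s₂ : K e₂ ⊆ Γ) (s₃ : K e₃ ⊆ Γ) :
    e₁ = e₂ ∨ e₁ = e₃ ∨ e₂ = e₃ := by
  by_contra hn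
  push Not at hn
  obtain ⟨p, hp⟩ := (C.isBall v).nonempty
  obtain ⟨q, -, hA, -⟩ := edge_from C d₁ v₁ hp
  obtain ⟨B, hB, hu, -⟩ := h.compl_arc hA s₁
  have key : ∀ e, dim e = 1 → e₁ ≠ e → K e ⊆ Γ → K e ⊆ B := fun e d hne s =>
    subset_of_opn C hB.isClosed fun x hx => ((hu ▸ s hx.1 : x ∈ K e₁ ∪ B)).resolve_left fun h' =>
      hne (eq_of_le C (C.opn_le hx h') (by omega)).symm
  obtain ⟨q₂, n₂, A₂, b₂⟩ := edge_from C d₂ v₂ hp
  obtain ⟨q₃, n₃, A₃, -⟩ := edge_from C d₃ v₃ hp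
  refine arc_overlap hB (key e₂ d₂ hn.1 s₂) (key e₃ d₃ hn.2.1 s₃) A₂.isPreconnected
    A₃.isPreconnected (C.subset v₂.le hp) (C.subset v₃.le hp)
    ⟨q₂, A₂.subset (Or.inr rfl), n₂.symm⟩ ⟨q₃, A₃.subset (Or.inr rfl), n₃.symm⟩
    ((toFinite {p, q₂}).subset fun x hx => ?_)
  obtain ⟨w, -, hw, -, hxw⟩ := edge_inter C d₂ d₃ hn.2.2 hx.1 hx.2
  exact mem_ends C hw hxw b₂

/-- exactly two edges of an edge circle at each of its vertices -/
theorem EC.two_edges [Finite I] (C : Cplx S I dim K) {Γ : Set E} (h : EC dim K Γ) {v : I}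
    (hv : dim v = 0) (hvΓ : K v ⊆ Γ) :
    ∃ e e', e ≠ e' ∧ ∀ g, (dim g = 1 ∧ v < g ∧ K g ⊆ Γ) ↔ g = e ∨ g = e' := by
  obtain ⟨p, hp⟩ := (C.isBall v).nonempty
  obtain ⟨e, he, hs, hpe⟩ := h.cov p (hvΓ hp)
  have hve : v < e := lt_of_le C.mono (C.opn_le (opn_vertex C hv hp) hpe) (by omega)
  obtain ⟨e', he', hve', hs', hne⟩ := h.exists_other C hv he hve hs
  refine ⟨e, e', hne.symm, fun g => ⟨fun hg => ?_, ?_⟩⟩
  · rcases EC.no_three C h.circ he he' hg.1 hve hve' hg.2.1 hs hs' hg.2.2 with e1 | e1 | e1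
    · exact (hne e1.symm).elim
    · exact Or.inl e1.symm
    · exact Or.inr e1.symm
  · rintro (rfl | rfl)
    · exact ⟨he, hve, hs⟩
    · exact ⟨he', hve', hs'⟩

/-- an edge has exactly two vertices -/
theorem two_vertices (C : Cplx S I dim K) {e : I} (he : dim e = 1) :
    ∃ v w, v ≠ w ∧ ∀ g, g < e ↔ g = v ∨ g = w := by
  obtain ⟨p, q, hne, -, hpq⟩ := edge_ball C he
  have d0 : ∀ g, g < e → dim g = 0 := fun g hg => by have := C.mono _ _ hg; omega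
  have h1 : p ∈ ⋃ j ∈ {j | j < e}, K j := hpq ▸ Or.inl rfl
  have h2 : q ∈ ⋃ j ∈ {j | j < e}, K j := hpq ▸ Or.inr rfl
  obtain ⟨v, hv, hpv⟩ := mem_iUnion₂.1 h1
  obtain ⟨w, hw, hqw⟩ := mem_iUnion₂.1 h2
  refine ⟨v, w, ?_, fun g => ⟨fun hg => ?_, ?_⟩⟩
  · rintro rfl
    obtain ⟨r, hr⟩ := vertex_eq C (d0 v hv)
    rw [hr] at hpv hqw
    exact hne (hpv.trans hqw.symm)
  · obtain ⟨x, hx⟩ := (C.isBall g).nonempty
    rcases mem_ends C hg hx hpq with rfl | rfl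
    · exact Or.inl (C.disj _ _ _ (opn_vertex C (d0 g hg) hx) (opn_vertex C (d0 v hv) hpv))
    · exact Or.inr (C.disj _ _ _ (opn_vertex C (d0 g hg) hx) (opn_vertex C (d0 w hw) hqw))
  · rintro (rfl | rfl)
    · exact hv
    · exact hw

end Crest.Agent.X212.Srf12
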