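import Crest.Agent.X212.Srf12.Circ

/-!
# X212 / SURF (helper12): a set of faces bounded by a circle is a disc if all edge circles bound
-/

set_option autoImplicit false

open Set Metric Topology Module

namespace Crest.Agent.X212.Srf12

open Crest.Agent.R096 Crest.Agent.R096.Ce_537 Crest.Agent.R096.Cb_609

variable {E : Type*} [NormedAddCommGroup E] [NormedSpace ℝ E]
  {S dS : Set E} {I : Type*} [PartialOrder I] {dim : I → ℕ} {K : I → Set E}

/-- exactly one member of `X` lies above `e` -/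
def bdE (X : Set I) (e : I) : Prop := ∃ f, f ∈ X ∧ e < f ∧ ∀ g, g ∈ X → e < g → g = f

theorem bdE_one {X : Set I} {e f : I} (h : ∀ g, e < g ↔ g = f) : bdE X e ↔ f ∈ X :=
  ⟨fun ⟨g, hg, h1, _⟩ => (h g).1 h1 ▸ hg, fun hf => ⟨f, hf, (h f).2 rfl, fun g _ hg => (h g).1 hg⟩⟩

theorem bdE_two {X : Set I} {e f f' : I} (hne : f ≠ f') (h : ∀ g, e < g ↔ g = f ∨ g = f') :
    bdE X e ↔ ¬ (f ∈ X ↔ f' ∈ X) := by
  constructor
  · rintro ⟨g, hg, h1, h2⟩ h3
    have a : f ∈ X ∧ f' ∈ X := by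
      rcases (h g).1 h1 with rfl | rfl
      · exact ⟨hg, h3.1 hg⟩
      · exact ⟨h3.2 hg, hg⟩
    exact hne ((h2 f a.1 ((h f).2 (Or.inl rfl))).trans (h2 f' a.2 ((h f').2 (Or.inr rfl))).symm)
  · intro h3
    by_cases a : f ∈ X
    · refine ⟨f, a, (h f).2 (Or.inl rfl), fun g hg h1 => ((h g).1 h1).resolve_right ?_⟩
      rintro rfl; exact h3 ⟨fun _ => hg, fun _ => a⟩
    · have b : f' ∈ X := by by_contra b; exact h3 ⟨fun x => (a x).elim, fun x => (b x).elim⟩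
      refine ⟨f', b, (h f').2 (Or.inr rfl), fun g hg h1 => ((h g).1 h1).resolve_left ?_⟩
      rintro rfl; exact a hg

theorem SC.dim_face (h : SC S dS I dim K) {e f : I} (he : dim e = 1) (hf : e < f) : dim f = 2 := by
  have := h.cx.mono _ _ hf; have := h.le2 f; omega

theorem SC.faces (h : SC S dS I dim K) {e : I} (he : dim e = 1) :
    (∃ f, ∀ g, e < g ↔ g = f) ∨ ∃ f f', f ≠ f' ∧ ∀ g, e < g ↔ g = f ∨ g = f' := by
  obtain ⟨f, hf, hef⟩ := h.pure e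
  have hlt : e < f := lt_of_le h.cx.mono hef (by omega)
  by_cases h1 : ∀ g, e < g → g = f
  · exact Or.inl ⟨f, fun g => ⟨h1 g, fun e' => e' ▸ hlt⟩⟩
  · push Not at h1
    obtain ⟨f', hf', hne⟩ := h1
    refine Or.inr ⟨f, f', hne.symm, fun g => ⟨fun hg => ?_, ?_⟩⟩
    · rcases h.two e f f' g he hlt hf' hg with a | a | a
      · exact (hne a.symm).elim
      · exact Or.inl a.symm
      · exact Or.inr a.symm
    · rintro (rfl | rfl) <;> assumption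

theorem SC.bdE_symmDiff (h : SC S dS I dim K) {e : I} (he : dim e = 1) (X Y : Set I) :
    bdE (symmDiff X Y) e ↔ ¬ (bdE X e ↔ bdE Y e) := by
  rcases h.faces he with ⟨f, hf⟩ | ⟨f, f', hne, hf⟩
  · simp only [bdE_one hf, mem_symmDiff]; tauto
  · simp only [bdE_two hne hf, mem_symmDiff]; tauto

open Classical in
/-- incidence numbers mod 2 -/
noncomputable def inc (dim : I → ℕ) (a b : I) : ZMod 2 :=
  if a < b ∧ dim b = dim a + 1 then 1 else 0

open Classical in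
/-- indicator of a set of cells -/
noncomputable def ind (X : Set I) (a : I) : ZMod 2 := if a ∈ X then 1 else 0

theorem sum_two {ι : Type*} [Fintype ι] {F : ι → ZMod 2} {a b : ι} (hne : a ≠ b)
    (h : ∀ g, g ≠ a → g ≠ b → F g = 0) : ∑ g, F g = F a + F b :=
  Finset.sum_eq_add a b hne (fun g _ hg => h g hg.1 hg.2) (by simp) (by simp)

theorem SC.inc_inc [Fintype I] (h : SC S dS I dim K) (v f : I) :
    ∑ e, inc dim v e * inc dim e f = 0 := by
  by_cases h0 : dim v = 0 ∧ dim f = 2 ∧ v < f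
  · obtain ⟨a, b, hne, hab⟩ := (ec_face h.cx h0.2.1).two_edges h.cx h0.1
      ((sub_face_iff h.cx).2 h0.2.2)
    simp only [sub_face_iff h.cx] at hab
    have one : ∀ g, g = a ∨ g = b → inc dim v g * inc dim g f = 1 := fun g hg => by
      obtain ⟨d, h1, h2⟩ := (hab g).2 hg
      simp [inc, h1, h2, d, h0.1, h0.2.1]
    rw [sum_two hne, one a (Or.inl rfl), one b (Or.inr rfl)]
    · rfl
    · intro g ha hb
      by_contra hn
      have h1 : v < g ∧ dim g = dim v + 1 := by by_contra h1; simp [inc, h1] at hn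
      have h2 : g < f ∧ dim f = dim g + 1 := by by_contra h2; simp [inc, h2] at hn
      rcases (hab g).1 ⟨by omega, h1.1, h2.1⟩ with e | e
      · exact ha e
      · exact hb e
  · refine Finset.sum_eq_zero fun g _ => ?_
    by_contra hn
    have h1 : v < g ∧ dim g = dim v + 1 := by by_contra h1; simp [inc, h1] at hn
    have h2 : g < f ∧ dim f = dim g + 1 := by by_contra h2; simp [inc, h2] at hn
    have := h.le2 f
    exact h0 ⟨by omega, by omega, h1.1.trans h2.1⟩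

theorem SC.inc_face (h : SC S dS I dim K) {e : I} (he : dim e = 1) (g : I) :
    (e < g → inc dim e g = 1) ∧ (¬ e < g → inc dim e g = 0) :=
  ⟨fun hg => by simp [inc, hg, he, h.dim_face he hg], fun hg => by simp [inc, hg]⟩

theorem SC.sum_ind [Fintype I] (h : SC S dS I dim K) {e : I} (he : dim e = 1) (X : Set I) :
    ∑ g, inc dim e g * ind X g = ind {e | bdE X e} e := by
  rcases h.faces he with ⟨f, hf⟩ | ⟨f, f', hne, hf⟩
  · rw [Finset.sum_eq_single f, (h.inc_face he f).1 ((hf f).2 rfl), one_mul]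
    · by_cases a : f ∈ X <;> simp [ind, bdE_one hf, a]
    · intro g _ hg
      rw [(h.inc_face he g).2 fun a => hg ((hf g).1 a), zero_mul]
    · simp
  · rw [sum_two hne, (h.inc_face he f).1 ((hf f).2 (Or.inl rfl)),
      (h.inc_face he f').1 ((hf f').2 (Or.inr rfl))]
    · by_cases a : f ∈ X <;> by_cases b : f' ∈ X <;> simp [ind, bdE_two hne hf, a, b]
      rfl
    · intro g ha hb
      rw [(h.inc_face he g).2 fun a => ((hf g).1 a).elim ha hb, zero_mul]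

theorem SC.no_free_end [Finite I] (h : SC S dS I dim K) {X : Set I} {v e : I} (hv : dim v = 0)
    (he : dim e = 1) (hve : v < e) (hb : bdE X e) :
    ∃ e', dim e' = 1 ∧ v < e' ∧ bdE X e' ∧ e' ≠ e := by
  have := Fintype.ofFinite I
  by_contra hn
  push Not at hn
  have h1 : ∑ e', inc dim v e' * ∑ g, inc dim e' g * ind X g = 0 := by
    simp only [Finset.mul_sum, ← mul_assoc]
    rw [Finset.sum_comm]
    exact Finset.sum_eq_zero fun g _ => by rw [← Finset.sum_mul, h.inc_inc, zero_mul]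
  rw [Finset.sum_eq_single e, h.sum_ind he] at h1
  · simp [inc, ind, hve, hv, he, hb] at h1
  · intro e' _ hne
    by_cases h2 : v < e' ∧ dim e' = dim v + 1
    · have d : dim e' = 1 := by omega
      have : ¬ bdE X e' := fun a => hne (hn e' d h2.1 a)
      rw [h.sum_ind d]
      simp [ind, this]
    · simp [inc, h2]
  · simp

/-- a nonempty set of edges of an edge circle without free ends is everything -/
theorem EC.minimal [Finite I] (C : Cplx S I dim K) {Γ : Set E} (hΓ : EC dim K Γ) {Z : I → Prop}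
    (hZ : ∀ e, dim e = 1 → Z e → K e ⊆ Γ)
    (hend : ∀ v e, dim v = 0 → dim e = 1 → v < e → Z e → ∃ e', dim e' = 1 ∧ v < e' ∧ Z e' ∧ e' ≠ e)
    {e₀ : I} (d₀ : dim e₀ = 1) (h₀ : Z e₀) {e : I} (d : dim e = 1) (he : K e ⊆ Γ) : Z e := by
  by_contra hn
  obtain ⟨y, -, hA, hB⟩ := isPreconnected_closed_iff.1 hΓ.circ.isPreconnected
    (⋃ g ∈ {g | dim g = 1 ∧ Z g}, K g) (⋃ g ∈ {g | dim g = 1 ∧ K g ⊆ Γ ∧ ¬ Z g}, K g)
    ((toFinite _).isClosed_biUnion fun i _ => C.isClosed i)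
    ((toFinite _).isClosed_biUnion fun i _ => C.isClosed i)
    (fun y hy => by
      obtain ⟨g, hg, hs, hyg⟩ := hΓ.cov y hy
      by_cases cg : Z g
      · exact Or.inl (mem_biUnion (show g ∈ {g | dim g = 1 ∧ Z g} from ⟨hg, cg⟩) hyg)
      · exact Or.inr (mem_biUnion
          (show g ∈ {g | dim g = 1 ∧ K g ⊆ Γ ∧ ¬ Z g} from ⟨hg, hs, cg⟩) hyg))
    ((C.isBall e₀).nonempty.mono (subset_inter (hZ e₀ d₀ h₀)
      (subset_biUnion_of_mem (u := K) (show e₀ ∈ {g | dim g = 1 ∧ Z g} from ⟨d₀, h₀⟩))))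
    ((C.isBall e).nonempty.mono (subset_inter he (subset_biUnion_of_mem (u := K)
      (show e ∈ {g | dim g = 1 ∧ K g ⊆ Γ ∧ ¬ Z g} from ⟨d, he, hn⟩))))
  obtain ⟨g, ⟨dg, zg⟩, hg⟩ := mem_iUnion₂.1 hA
  obtain ⟨g', ⟨dg', sg', zg'⟩, hg'⟩ := mem_iUnion₂.1 hB
  have hne : g ≠ g' := by rintro rfl; exact zg' zg
  obtain ⟨v, hv, v1, v2, -⟩ := edge_inter C dg dg' hne hg hg'
  obtain ⟨g'', d'', v3, z'', ne''⟩ := hend v g hv dg v1 zg
  rcases EC.no_three C hΓ.circ dg dg' d'' v1 v2 v3 (hZ g dg zg) sg' (hZ g'' d'' z'') with a | a | a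
  · exact hne a
  · exact ne'' a.symm
  · exact zg' (a ▸ z'')

/-- the union of the cells of `X` -/
def car (K : I → Set E) (X : Set I) : Set E := ⋃ f ∈ X, K f

/-- `X` is bounded by `Γ` -/
def Bds (dim : I → ℕ) (K : I → Set E) (X : Set I) (Γ : Set E) : Prop :=
  ∀ e, dim e = 1 → (bdE X e ↔ K e ⊆ Γ)

theorem Bds.subset {X : Set I} {Γ : Set E} (C : Cplx S I dim K) (h : Bds dim K X Γ)
    (hΓ : EC dim K Γ) : Γ ⊆ car K X := by
  intro x hx
  obtain ⟨e, he, hs, hxe⟩ := hΓ.cov x hx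
  obtain ⟨f, hf, hef, -⟩ := (h e he).2 hs
  exact mem_biUnion hf (C.subset hef.le hxe)

/-- a point common to a face of `Y` and to a face outside `Y` lies on the boundary -/
theorem SC.mem_bd (h : SC S dS I dim K) {Y : Set I} {Γ : Set E} (hY : Bds dim K Y Γ) {f f' : I}
    (d : dim f = 2) (d' : dim f' = 2) (hf : f ∈ Y) (hf' : f' ∉ Y) {y : E} (hy : y ∈ K f)
    (hy' : y ∈ K f') : y ∈ Γ := by
  have key : ∀ e g g', dim e = 1 → e < g → e < g' → g ∈ Y → g' ∉ Y → K e ⊆ Γ := by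
    intro e g g' de h1 h2 a b
    refine (hY e de).1 ⟨g, a, h1, fun g'' c h3 => ?_⟩
    rcases h.two e g g' g'' de h1 h2 h3 with x | x | x
    · exact (b (x ▸ a)).elim
    · exact x.symm
    · exact (b (x ▸ c)).elim
  obtain ⟨m, m1, m2, hm⟩ := h.cx.mem_inter hy hy'
  have n1 : m ≠ f := by rintro rfl; exact hf' (eq_of_le h.cx m2 (by omega) ▸ hf)
  have l1 := lt_of_le_of_ne m1 n1
  have l3 := h.cx.mono _ _ l1
  have l2 : m < f' := lt_of_le h.cx.mono m2 (by omega)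
  by_cases dm : dim m = 1
  · exact key m f f' dm l1 l2 hf hf' hm
  · by_contra hn
    refine hf' ((h.link m (· ∈ Y) (by omega) (fun e g g' h0 h1 h2 => ?_) f f' d d' l1 l2).1 hf)
    have de : dim e = 1 := by
      have := h.cx.mono _ _ h0; have := h.cx.mono _ _ h1; have := h.le2 g; omega
    constructor
    · intro a; by_contra b; exact hn (key e g g' de h1 h2 a b (h.cx.subset h0.le hm))
    · intro a; by_contra b; exact hn (key e g' g de h2 h1 a b (h.cx.subset h0.le hm))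

theorem sub_pt [Finite I] (C : Cplx S I dim K) {f : I} (hf : dim f = 2) {Γ : Set E}
    (hΓ : Sub K Γ) {p : E} (hp : p ∈ Γ)
    (hc : p ∈ closure ((⋃ j ∈ {j | j < f}, K j) \ Γ)) : Sub K {p} := by
  rintro i x hx rfl
  obtain ⟨O, hO, hxO, hnear⟩ := exists_near C x
  obtain ⟨y, hyO, hy, hyΓ⟩ := mem_closure_iff_nhds.1 hc O (hO.mem_nhds hxO)
  obtain ⟨j, hj, hyj⟩ := mem_iUnion₂.1 hy
  have h1 : i ≤ j := C.opn_le hx (hnear j y hyO hyj)
  have h2 : i ≠ j := by rintro rfl; exact hyΓ (hΓ i x hx hp hyj)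
  have h3 := C.mono _ _ (lt_of_le_of_ne h1 h2)
  have h4 := C.mono _ _ hj
  obtain ⟨q, hq⟩ := vertex_eq C (v := i) (by omega)
  have h5 := hx.1
  rw [hq] at h5 ⊢
  rw [h5]

/-- an arc of edges of the face `f` which meets `Γ` in its end points -/
theorem exists_chord [Finite I] [FiniteDimensional ℝ E] (C : Cplx S I dim K) {f e₀ e₁ : I}
    (hf : dim f = 2) {Γ : Set E} (hc : IsClosed Γ) (hΓ : Sub K Γ) (d₀ : dim e₀ = 1) (h₀ : e₀ < f)
    (s₀ : K e₀ ⊆ Γ) (h₁ : e₁ < f) (s₁ : ¬ K e₁ ⊆ Γ) :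
    ∃ α p q, IsBall 1 α {p, q} ∧ α ⊆ ⋃ j ∈ {j | j < f}, K j ∧ α ∩ Γ = {p, q} ∧ Sub K α ∧
      Sub K {p, q} ∧ K e₁ ⊆ α := by
  obtain ⟨p₀, q₀, -, hA, -⟩ := edge_ball C d₀
  have hR := ec_face C hf
  obtain ⟨γ, hγ, hu, -⟩ := hR.circ.compl_arc hA ((sub_face_iff C).2 h₀)
  obtain ⟨x, hx⟩ := exists_opn_pt C e₁
  have hxΓ : x ∉ Γ := fun h => s₁ (hΓ e₁ x hx h)
  have hxγ : x ∈ γ := (hu ▸ (sub_face_iff C).2 h₁ hx.1 : x ∈ K e₀ ∪ γ).resolve_left
    fun h => hxΓ (s₀ h)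
  obtain ⟨α, p, q, hα, hs, hxα, hi⟩ := exists_gap hγ hc (s₀ (hA.subset (Or.inl rfl)))
    (s₀ (hA.subset (Or.inr rfl))) hxγ hxΓ
  have hs' : α ⊆ ⋃ j ∈ {j | j < f}, K j := hs.trans (hu ▸ subset_union_right)
  have hpt : ∀ r ∈ ({p, q} : Set E), Sub K {r} := fun r hr => by
    refine sub_pt C hf hΓ (hi ▸ hr : r ∈ α ∩ Γ).2 (closure_mono (s := α \ {p, q}) ?_ ?_)
    · exact fun y hy => ⟨hs' hy.1, fun h => hy.2 (hi ▸ ⟨hy.1, h⟩)⟩
    · rw [hα.closure_diff]; exact hα.subset hr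
  have hpq : Sub K {p, q} := (hpt p (Or.inl rfl)).union (hpt q (Or.inr rfl))
  obtain ⟨α', hα', hu', hi'⟩ := hR.circ.compl_arc hα hs'
  have hsub : Sub K α := sub_of_split C hα.isClosed hα'.isClosed (hu' ▸ hR.sub C) (hi' ▸ hpq)
  exact ⟨α, p, q, hα, hs', hi, hsub, hpq, hsub e₁ x hx hxα⟩

theorem sub_union_iff (C : Cplx S I dim K) {A B : Set E} (hA : Sub K A) (hB : Sub K B) {i : I} :
    K i ⊆ A ∪ B ↔ K i ⊆ A ∨ K i ⊆ B := by
  refine ⟨fun h => ?_, fun h => h.elim (·.trans subset_union_left) (·.trans subset_union_right)⟩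
  obtain ⟨x, hx⟩ := exists_opn_pt C i
  exact (h hx.1).imp (hA i x hx) (hB i x hx)

/-- **the disc theorem on a surface complex** -/
theorem SC.disc [Finite I] [FiniteDimensional ℝ E] (h : SC S dS I dim K) {U : Set I}
    (hU : ∀ f ∈ U, dim f = 2)
    (U1 : ∀ X ⊆ U, (∀ e, dim e = 1 → ¬ bdE X e) → X = ∅)
    (U2 : ∀ Γ, EC dim K Γ → Γ ⊆ car K U → ∃ Y ⊆ U, Bds dim K Y Γ)
    {X : Set I} (hX : X ⊆ U) {Γ : Set E} (hΓ : EC dim K Γ) (hb : Bds dim K X Γ) :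
    IsBall 2 (car K X) Γ := by
  have C := h.cx
  have uniq : ∀ X ⊆ U, ∀ Y ⊆ U, (∀ e, dim e = 1 → (bdE X e ↔ bdE Y e)) → X = Y := by
    intro X hX Y hY hXY
    rw [← symmDiff_eq_empty]
    refine U1 _ (symmDiff_subset_union.trans (union_subset hX hY)) fun e de => ?_
    rw [h.bdE_symmDiff de]
    exact not_not.2 (hXY e de)
  have mini : ∀ {Γ}, EC dim K Γ → ∀ Z, (∀ e, dim e = 1 → bdE Z e → K e ⊆ Γ) →
      ∀ e₀, dim e₀ = 1 → bdE Z e₀ → Bds dim K Z Γ := fun hΓ Z hZ e₀ d₀ h₀ e de =>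
    ⟨hZ e de, hΓ.minimal C hZ (fun v e hv he hve => h.no_free_end hv he hve) d₀ h₀ de⟩
  induction hn : X.ncard using Nat.strong_induction_on generalizing X Γ with
  | _ n ih =>
  obtain ⟨x₀, hx₀⟩ := hΓ.circ.nonempty
  obtain ⟨e₀, d₀, s₀, -⟩ := hΓ.cov x₀ hx₀
  obtain ⟨f, hfX, h₀, -⟩ := (hb e₀ d₀).2 s₀
  have df := hU f (hX hfX)
  by_cases hall : ∀ e, dim e = 1 → e < f → K e ⊆ Γ
  · have b1 : ∀ e, bdE {f} e ↔ e < f := fun e =>
      ⟨fun ⟨g, hg, h1, _⟩ => hg ▸ h1, fun h1 => ⟨f, rfl, h1, fun g hg _ => hg⟩⟩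
    have b2 := mini hΓ {f} (fun e de a => hall e de ((b1 e).1 a)) e₀ d₀ ((b1 e₀).2 h₀)
    have b3 : X = {f} := uniq X hX {f} (singleton_subset_iff.2 (hX hfX))
      fun e de => (hb e de).trans (b2 e de).symm
    have b4 : Γ = ⋃ j ∈ {j | j < f}, K j := by
      refine Subset.antisymm (fun x hx => ?_) fun x hx => ?_
      · obtain ⟨e, de, s, hxe⟩ := hΓ.cov x hx
        exact (sub_face_iff C).2 ((b1 e).1 ((b2 e de).2 s)) hxe
      · obtain ⟨e, de, s, hxe⟩ := (ec_face C df).cov x hx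
        exact hall e de ((sub_face_iff C).1 s) hxe
    rw [b3, b4, car, biUnion_singleton]
    exact face_ball C df
  push Not at hall
  obtain ⟨e₁, d₁, h₁, s₁⟩ := hall
  obtain ⟨α, p, q, hα, sα, iα, subα, subpq, s₁α⟩ :=
    exists_chord C df hΓ.circ.isClosed (hΓ.sub C) d₀ h₀ s₀ h₁ s₁
  have hp : p ∈ α ∩ Γ := iα ▸ Or.inl rfl
  have hq : q ∈ α ∩ Γ := iα ▸ Or.inr rfl
  obtain ⟨β₁, β₂, hβ₁, hβ₂, hu, hi⟩ := hΓ.circ.two_marks hp.2 hq.2 (arc_ne hα)
  have sub₁ : Sub K β₁ :=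
    sub_of_split C hβ₁.isClosed hβ₂.isClosed (hu ▸ hΓ.sub C) (hi ▸ subpq)
  have sub₂ : Sub K β₂ := sub_of_split C hβ₂.isClosed hβ₁.isClosed
    (by rw [union_comm, hu]; exact hΓ.sub C) (by rw [inter_comm, hi]; exact subpq)
  have ia : ∀ β, IsBall 1 β {p, q} → β ⊆ Γ → α ∩ β = {p, q} := fun β hβ s =>
    Subset.antisymm (iα ▸ inter_subset_inter_right _ s) (subset_inter hα.subset hβ.subset)
  have s1 : β₁ ⊆ Γ := hu ▸ subset_union_left
  have s2 : β₂ ⊆ Γ := hu ▸ subset_union_right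
  have carU : car K X ⊆ car K U := biUnion_subset_biUnion_left hX
  have sαX : α ⊆ car K X := sα.trans ((face_ball C df).subset.trans (subset_biUnion_of_mem hfX))
  have sΓX := hb.subset C hΓ
  have carS : car K U ⊆ S := iUnion₂_subset fun i _ => C.sub i
  have ec : ∀ β, IsBall 1 β {p, q} → β ⊆ Γ → Sub K β → EC dim K (α ∪ β) := fun β hβ s sb =>
    ec_of_sub C (circ_union hα hβ (ia β hβ s))
      ((union_subset sαX (s.trans sΓX)).trans (carU.trans carS)) (subα.union sb)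
  have c₁ := ec β₁ hβ₁ s1 sub₁
  have c₂ := ec β₂ hβ₂ s2 sub₂
  obtain ⟨Y₁, u₁, b₁⟩ := U2 _ c₁ ((union_subset sαX (s1.trans sΓX)).trans carU)
  obtain ⟨Y₂, u₂, b₂⟩ := U2 _ c₂ ((union_subset sαX (s2.trans sΓX)).trans carU)
  have fin : ({p, q} : Set E).Finite := toFinite _
  have ex : ∀ e, dim e = 1 → ∀ A B : Set E, A ∩ B = {p, q} → K e ⊆ A → ¬ K e ⊆ B :=
    fun e de A B hAB a b => edge_not_sub C de fin (hAB ▸ subset_inter a b)
  have r₁ : ∀ e, dim e = 1 → (bdE Y₁ e ↔ K e ⊆ α ∨ K e ⊆ β₁) := fun e de =>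
    (b₁ e de).trans (sub_union_iff C subα sub₁)
  have r₂ : ∀ e, dim e = 1 → (bdE Y₂ e ↔ K e ⊆ α ∨ K e ⊆ β₂) := fun e de =>
    (b₂ e de).trans (sub_union_iff C subα sub₂)
  have r : ∀ e, dim e = 1 → (bdE X e ↔ K e ⊆ β₁ ∨ K e ⊆ β₂) := fun e de =>
    (hb e de).trans (hu ▸ sub_union_iff C sub₁ sub₂)
  have hXY : X = symmDiff Y₁ Y₂ := by
    refine uniq X hX _ (symmDiff_subset_union.trans (union_subset u₁ u₂)) fun e de => ?_
    rw [h.bdE_symmDiff de, r₁ e de, r₂ e de, r e de]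
    have := ex e de α β₁ (ia β₁ hβ₁ s1)
    have := ex e de α β₂ (ia β₂ hβ₂ s2)
    have := ex e de β₁ β₂ hi
    tauto
  have hZX : ∀ g, g ∈ Y₁ ∩ Y₂ → g ∉ X := fun g hg hgX => by
    rw [hXY, mem_symmDiff] at hgX
    exact hgX.elim (fun a => a.2 hg.2) fun a => a.2 hg.1
  have hZ : ∀ e, dim e = 1 → bdE (Y₁ ∩ Y₂) e → K e ⊆ Γ := by
    intro e de hz
    by_contra hn
    have n1 : ¬ K e ⊆ β₁ := fun a => hn (a.trans s1)
    have n2 : ¬ K e ⊆ β₂ := fun a => hn (a.trans s2)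
    have nX : ¬ bdE X e := fun a => hn ((hb e de).1 a)
    by_cases ha : K e ⊆ α
    · have hef : e < f := (sub_face_iff C).1 (ha.trans sα)
      obtain ⟨g, hg, heg, -⟩ := hz
      refine nX ⟨f, hfX, hef, fun g' hg' h' => ?_⟩
      rcases h.two e f g g' de hef heg h' with a | a | a
      · exact (hZX g hg (a ▸ hfX)).elim
      · exact a.symm
      · exact (hZX g hg (a ▸ hg')).elim
    · have m1 : ¬ bdE Y₁ e := fun a => ((r₁ e de).1 a).elim ha n1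
      have m2 : ¬ bdE Y₂ e := fun a => ((r₂ e de).1 a).elim ha n2
      rcases h.faces de with ⟨g, hg⟩ | ⟨g, g', hne, hg⟩
      · rw [bdE_one hg] at hz m1; exact m1 hz.1
      · rw [bdE_two hne hg] at hz m1 m2
        simp only [mem_inter_iff] at hz
        tauto
  have hZ0 : Y₁ ∩ Y₂ = ∅ := by
    refine U1 _ (inter_subset_left.trans u₁) fun e de hz => ?_
    have := uniq _ (inter_subset_left.trans u₁) X hX
      fun e' de' => (mini hΓ _ hZ e de hz e' de').trans (hb e' de').symm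
    exact hZX f (this ▸ hfX) hfX
  have dj : ∀ g, g ∈ Y₁ → g ∉ Y₂ := fun g a b => (hZ0 ▸ ⟨a, b⟩ : g ∈ (∅ : Set I))
  have hXu : X = Y₁ ∪ Y₂ := by
    rw [hXY]
    ext g
    rw [mem_symmDiff, mem_union]
    have := dj g
    tauto
  obtain ⟨f₁, hf₁, -⟩ := (r₁ e₁ d₁).2 (Or.inl s₁α)
  obtain ⟨f₂, hf₂, -⟩ := (r₂ e₁ d₁).2 (Or.inl s₁α)
  have D₁ := ih _ (hn ▸ ncard_lt_ncard (ssubset_iff_of_subset (hXu ▸ subset_union_left) |>.2
    ⟨f₂, hXu ▸ Or.inr hf₂, fun a => dj f₂ a hf₂⟩)) u₁ c₁ b₁ rfl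
  have D₂ := ih _ (hn ▸ ncard_lt_ncard (ssubset_iff_of_subset (hXu ▸ subset_union_right) |>.2
    ⟨f₁, hXu ▸ Or.inl hf₁, dj f₁ hf₁⟩)) u₂ c₂ b₂ rfl
  have hK : car K Y₁ ∩ car K Y₂ = α := by
    refine Subset.antisymm ?_ (subset_inter (subset_union_left.trans D₁.subset)
      (subset_union_left.trans D₂.subset))
    rintro y ⟨y₁, y₂⟩
    obtain ⟨g₁, a₁, y₁⟩ := mem_iUnion₂.1 y₁
    obtain ⟨g₂, a₂, y₂⟩ := mem_iUnion₂.1 y₂
    have t₁ := h.mem_bd b₁ (hU _ (u₁ a₁)) (hU _ (u₂ a₂)) a₁ (fun a => dj _ a a₂) y₁ y₂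
    have t₂ := h.mem_bd b₂ (hU _ (u₂ a₂)) (hU _ (u₁ a₁)) a₂ (dj _ a₁) y₂ y₁
    rcases t₁ with t₁ | t₁
    · exact t₁
    · exact t₂.elim id fun t₂ => hα.subset (hi ▸ ⟨t₁, t₂⟩)
  have := IsBall.glue (k := 1) D₁ D₂ hα hβ₁ hβ₂ (ia β₁ hβ₁ s1) (ia β₂ hβ₂ s2) hK
  rwa [hu, car, car, ← biUnion_union, ← hXu] at this

end Crest.Agent.X212.Srf12
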