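import Crest.Agent.X212.Srf12.Rec
import Crest.Agent.X212.Thk1.PL

/-!
# X212 / SURF (helper12): gluing of surfaces along boundary components, caps
-/

set_option autoImplicit false

open Set Metric Topology Module

namespace Crest.Agent.X212.Srf12

open Crest.Agent.R096 Crest.Agent.R096.Ce_537 Crest.Agent.R096.Cb_609 Crest.Agent.R096.Coh_184
  Crest.Agent.R096.Pl

variable {E : Type*} [NormedAddCommGroup E] [NormedSpace ℝ E] [FiniteDimensional ℝ E]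

/-- small arcs around a point of a circle -/
theorem Circ.small_arc {Γ : Set E} (h : Circ Γ) {x : E} (hx : x ∈ Γ) {O : Set E} (hO : O ∈ 𝓝 x) :
    ∃ α p q, IsBall 1 α {p, q} ∧ α ⊆ Γ ∩ O ∧ x ∈ α ∧ x ≠ p ∧ x ≠ q := by
  obtain ⟨y₁, h1, m1, n1⟩ := h.perfect hx Filter.univ_mem
  obtain ⟨y₂, h2, m2, n2⟩ := h.perfect hx (isOpen_compl_singleton.mem_nhds (Ne.symm n1))
  obtain ⟨r, hr, hrO⟩ := Metric.nhds_basis_closedBall.mem_iff.1 hO
  have key : ∀ A, IsBall 1 A {y₁, y₂} → A ⊆ Γ → x ∈ A →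
      ∃ α p q, IsBall 1 α {p, q} ∧ α ⊆ Γ ∩ O ∧ x ∈ α ∧ x ≠ p ∧ x ≠ q := fun A hA hs hxA => by
    have hxT : x ∉ (ball x r)ᶜ ∪ {y₁, y₂} := by
      rintro (a | a | a)
      exacts [a (mem_ball_self hr), n1 a.symm, n2 a.symm]
    obtain ⟨α, p, q, hα, s, hxα, hi⟩ := exists_gap hA (T := (ball x r)ᶜ ∪ {y₁, y₂})
      (isOpen_ball.isClosed_compl.union (toFinite _).isClosed) (Or.inr (Or.inl rfl))
      (Or.inr (Or.inr rfl)) hxA hxT
    have hpq : ∀ z ∈ ({p, q} : Set E), x ≠ z := fun z hz e => hxT (by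
      rw [← hi] at hz; rw [← e] at hz; exact hz.2)
    refine ⟨α, p, q, hα, subset_inter (s.trans hs) ?_, hxα, hpq p (Or.inl rfl), hpq q (Or.inr rfl)⟩
    rw [← hα.closure_diff]
    refine (closure_minimal (fun z hz => ball_subset_closedBall ?_) isClosed_closedBall).trans hrO
    by_contra a
    exact hz.2 (hi ▸ ⟨hz.1, Or.inl a⟩)
  obtain ⟨A, B, hA, hB, hu, -⟩ := h.two_marks m1 m2 (Ne.symm h2)
  rcases (hu ▸ hx : x ∈ A ∪ B) with a | a
  · exact key A hA (hu ▸ subset_union_left) a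
  · exact key B hB (hu ▸ subset_union_right) a

/-- a half disc standing on an arc of the rim -/
theorem half_disc {D Γ α : Set E} {p q : E} (h : IsBall 2 D Γ) (hα : IsBall 1 α {p, q})
    (hs : α ⊆ Γ) : ∃ D' Γ', IsBall 2 D' Γ' ∧ α ⊆ Γ' ∧ D' ⊆ D ∧ D' ∩ Γ ⊆ α ∧
      ∀ x ∈ α, x ≠ p → x ≠ q → D' ∈ 𝓝[D] x := by
  obtain ⟨β, hP, hu⟩ := exists_compl_arc h hα hs
  obtain ⟨e0, he0, -⟩ := (isBall_Mid 1).exists_equiv hα
  obtain ⟨e, h1, -, h3⟩ := (ballPair_up 1).extend hP e0 he0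
  let σ : (Fin 1 → ℝ) × ℝ → (Fin 1 → ℝ) × ℝ := fun z => (z.1, (1 / 2 : ℝ) * z.2)
  have hσ : MapsTo σ (Up 1) (Up 1) := fun z hz => ⟨by have := hz.1; simp only [σ]; linarith,
    by have := hz.1; have := hz.2; simp only [σ]; linarith⟩
  have pσ : PLOn σ (Up 1) := Thk1.pl_pair (Thk1.pl_fst' _) (Thk1.pl_mul _ (Thk1.pl_snd' _))
  have iσ : Function.Injective σ := fun z w e => by
    simp only [σ, Prod.mk.injEq] at e
    exact Prod.ext e.1 (by linarith [e.2])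
  have hm : ∀ z ∈ Mid 1, σ z = z := fun z hz => Prod.ext rfl (by simp [σ, hz.1])
  have mU : Mid 1 ⊆ Up 1 := (ballPair_up 1).subset₁
  have hD := (isBall_up 1).image_injOn (e.pf.comp pσ hσ)
    (e.injOn.comp iσ.injOn hσ)
  refine ⟨_, _, hD, fun x hx => ⟨e0.g x, Or.inl (e0.mg hx), ?_⟩, ?_, ?_, fun x hx hp hq => ?_⟩
  · simp only
    rw [hm _ (e0.mg hx), h1 (e0.mg hx), e0.ri x hx]
  · rintro _ ⟨z, hz, rfl⟩
    exact e.mf (hσ hz)
  · rintro _ ⟨⟨z, hz, rfl⟩, a⟩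
    rw [← hu] at a
    refine a.elim id fun a => ?_
    rw [← h3] at a
    obtain ⟨w, hw, a⟩ := a
    obtain rfl := e.injOn ((ballPair_up 1).subset₂ hw) (hσ hz) a
    have h4 := hw.2
    have h5 := hz.1
    have h6 := hz.2
    simp only [N1, σ] at h4
    rw [abs_of_nonneg (by linarith)] at h4
    have : z ∈ Mid 1 := ⟨by linarith, by linarith⟩
    simp only
    rw [hm z this, h1 this]
    exact e0.mf this
  · have hz := e0.mg hx
    have hn : ‖(e0.g x).1‖ < 1 := lt_of_le_of_ne hz.2 fun a => by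
      have : x ∈ ({p, q} : Set E) := he0 ▸ ⟨e0.g x, ⟨hz.1, a⟩, e0.ri x hx⟩
      exact this.elim hp hq
    have hW : {z : (Fin 1 → ℝ) × ℝ | 2 * z.2 + ‖z.1‖ < 1} ∈ 𝓝[Up 1] (e0.g x) :=
      mem_nhdsWithin_of_mem_nhds ((isOpen_lt (by fun_prop) continuous_const).mem_nhds
        (by simp only [mem_ofPred_eq, hz.1]; linarith))
    have := Thk1.nhds_image e (mU hz) hW
    rw [h1 hz, e0.ri x hx] at this
    refine Filter.mem_of_superset this ?_
    rintro _ ⟨z, ⟨a, b⟩, rfl⟩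
    refine ⟨(z.1, 2 * z.2), ⟨by have := b.1; simp only; linarith, le_of_lt a⟩, ?_⟩
    simp only [σ]
    congr 1
    exact Prod.ext rfl (by simp only; ring)

/-- **gluing two surfaces along boundary components** -/
theorem Srf.glue {S dS T dT G : Set E} (hS : Srf S dS) (hT : Srf T dT) (hG : S ∩ T = G)
    (h1 : G ⊆ dS) (h2 : G ⊆ dT) (c1 : IsClosed (dS \ G)) :
    Srf (S ∪ T) ((dS ∪ dT) \ G) := by
  have side : ∀ {S dS T dT : Set E}, Srf S dS → Srf T dT → S ∩ T = G → ∀ x ∈ S, x ∉ G →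
      ∃ D Γ, IsBall 2 D Γ ∧ D ⊆ S ∪ T ∧ D ∈ 𝓝[S ∪ T] x ∧ (x ∈ (dS ∪ dT) \ G ↔ x ∈ Γ) := by
    intro S dS T dT hS hT hG x hx hxG
    have hxT : x ∉ T := fun a => hxG (hG ▸ ⟨hx, a⟩)
    obtain ⟨D, Γ, hD, s, n, b⟩ := hS.loc x hx
    refine ⟨D, Γ, hD, s.trans subset_union_left, ?_, ?_⟩
    · rw [nhdsWithin_union, Filter.mem_sup]
      refine ⟨n, ?_⟩
      rw [notMem_closure_iff_nhdsWithin_eq_bot.1 (by rwa [hT.cpt.isClosed.closure_eq])]
      exact Filter.mem_bot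
    · rw [← b]
      exact ⟨fun a => a.1.resolve_right fun c => hxT (hT.sub c), fun a => ⟨Or.inl a, hxG⟩⟩
  refine ⟨hS.cpt.union hT.cpt, sdiff_subset.trans (union_subset_union hS.sub hT.sub),
    fun x hx => ?_⟩
  by_cases hxG : x ∈ G
  swap
  · rcases hx with hx | hx
    · exact side hS hT hG x hx hxG
    · simpa only [union_comm] using side hT hS (by rw [inter_comm, hG]) x hx hxG
  obtain ⟨D, Γ, hD, s, n, b⟩ := hS.loc x (hS.sub (h1 hxG))
  obtain ⟨D', Γ', hD', s', n', b'⟩ := hT.loc x (hT.sub (h2 hxG))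
  have hO : ∀ᶠ y in 𝓝 x, y ∈ Γ → y ∈ G ∧ y ∈ Γ' := by
    filter_upwards [hS.bd_near hD s n, hT.bd_near hD' s' n',
      c1.isOpen_compl.mem_nhds (show x ∉ dS \ G from fun a => a.2 hxG)] with y a1 a2 a3 a4
    have : y ∈ G := by by_contra c; exact a3 ⟨a1.2 a4, c⟩
    exact ⟨this, a2.1 (h2 this)⟩
  obtain ⟨α, p, q, hα, sα, hxα, hp, hq⟩ := (circ_of_disc hD).small_arc (b.1 (h1 hxG)) hO
  obtain ⟨D₁, Γ₁, k1, a1, s1, i1, n1⟩ := half_disc hD hα fun y hy => (sα hy).1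
  obtain ⟨D₂, Γ₂, k2, a2, s2, -, n2⟩ := half_disc hD' hα fun y hy => ((sα hy).2 (sα hy).1).2
  obtain ⟨β₁, β₂, hP, -, -, j1, j2⟩ := glue_disc k1 k2 hα a1 a2 (Subset.antisymm (fun y hy =>
    i1 ⟨hy.1, by
      by_contra c
      exact (hS.disc_int hD s (s1 hy.1) c).1 (h1 (hG ▸ ⟨s (s1 hy.1), s' (s2 hy.2)⟩))⟩)
    (subset_inter (a1.trans k1.subset) (a2.trans k2.subset)))
  refine ⟨_, _, hP.ball, union_subset_union (s1.trans s) (s2.trans s'), ?_,
    iff_of_false (fun a => a.2 hxG) ?_⟩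
  · rw [nhdsWithin_union, Filter.mem_sup, ← nhdsWithin_eq_of s n, ← nhdsWithin_eq_of s' n']
    exact ⟨Filter.mem_of_superset (n1 x hxα hp hq) subset_union_left,
      Filter.mem_of_superset (n2 x hxα hp hq) subset_union_right⟩
  · rintro (a | a)
    · exact (j1 ▸ ⟨hxα, a⟩ : x ∈ ({p, q} : Set E)).elim hp hq
    · exact (j2 ▸ ⟨hxα, a⟩ : x ∈ ({p, q} : Set E)).elim hp hq

/-- **a cap** over a circle, one dimension higher -/
theorem Circ.cap {Γ : Set E} (h : Circ Γ) : ∃ D : Set (E × ℝ),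
    IsBall 2 D ((fun x => (x, (0 : ℝ))) '' Γ) ∧ ∀ z ∈ D, z.2 = 0 → z.1 ∈ Γ := by
  obtain ⟨a⟩ := h
  let φ : (Fin 2 → ℝ) → E × ℝ := fun x => (Cx_609.cone a.f x, 1 - ‖x‖)
  have pφ : PLOn φ (cube 2) := Thk1.pl_pair
    ((Cx_609.plOn_iff.1 (Cx_609.plOn_iff.2 a.pf).cone).mono (subset_univ _))
    (Thk1.pl_sub (plOn_const _ _) (Thk1.pl_norm' _))
  have iφ : InjOn φ (cube 2) := fun x _ y _ e => by
    simp only [φ, Prod.mk.injEq, Cx_609.cone] at e
    have hn : ‖x‖ = ‖y‖ := by linarith [e.2]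
    by_cases h0 : x = 0
    · rw [h0, norm_zero, eq_comm, norm_eq_zero] at hn
      rw [h0, hn]
    · have hy : y ≠ 0 := fun c => h0 (norm_eq_zero.1 (by rw [hn, c, norm_zero]))
      have n0 : ‖y‖ ≠ 0 := norm_ne_zero_iff.2 hy
      have e1 := a.injOn (smul_mem_sph h0) (smul_mem_sph hy)
        (smul_right_injective E n0 (by simpa only [hn] using e.1))
      rw [hn] at e1
      exact smul_right_injective _ (inv_ne_zero n0) e1
  have hs : ∀ x ∈ sph 2, φ x = (a.f x, 0) := fun x hx => by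
    simp only [φ, Cx_609.cone_of_sphere a.f hx, mem_sphere_zero_iff_norm.1 hx]
    rw [sub_self]
  refine ⟨φ '' cube 2, ?_, ?_⟩
  · have := Cx_609.isBall_of_injOn pφ iφ
    rwa [image_congr hs, ← image_image (fun x => (x, (0 : ℝ))) a.f, a.image_eq] at this
  · rintro _ ⟨x, -, rfl⟩ h0
    have : x ∈ sph 2 := mem_sphere_zero_iff_norm.2 (by simp only [φ] at h0; linarith)
    rw [hs x this]
    exact a.mf this

end Crest.Agent.X212.Srf12
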