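import Crest.Agent.X212.Srf12.Disc
import Crest.Agent.R096.Coh4_184

/-!
# X212 / SURF (helper12): edge cochains and locally constant cocycles
-/

set_option autoImplicit false

open Set Metric Topology Module

namespace Crest.Agent.X212.Srf12

open Crest.Agent.R096 Crest.Agent.R096.Ce_537 Crest.Agent.R096.Cb_609 Crest.Agent.R096.Coh_184

section Reindex

variable {X Y : Type*} [TopologicalSpace X] [TopologicalSpace Y] {ι ι' A : Type*} [AddCommGroup A]

theorem coc_reindex {C : ι → Set X} {d : ι → ι → X → A} {S : Set X} (h : Coc C d S)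
    (e : ι' ≃ ι) : Coc (fun i => C (e i)) (fun i j => d (e i) (e j)) S where
  closed i := h.closed _
  cov x hx := by
    obtain ⟨i, hi⟩ := mem_iUnion.1 (h.cov hx)
    exact mem_iUnion.2 ⟨e.symm i, by simpa using hi⟩
  lc i j := h.lc _ _
  coc i j k := h.coc _ _ _

theorem triv_reindex {C : ι → Set X} {d : ι → ι → X → A} {S : Set X} (e : ι' ≃ ι) :
    Triv (fun i => C (e i)) (fun i j => d (e i) (e j)) S ↔ Triv C d S := by
  constructor
  · rintro ⟨χ, h1, h2⟩
    refine ⟨fun i => χ (e.symm i), fun i => by simpa using h1 (e.symm i), fun i j x hi hj hx => ?_⟩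
    simpa using h2 (e.symm i) (e.symm j) x (by simpa using hi) (by simpa using hj) hx
  · rintro ⟨χ, h1, h2⟩
    exact ⟨fun i => χ (e i), fun i => h1 _, fun i j => h2 _ _⟩

theorem H1.triv [Finite ι] {S : Set X} (h : H1 S) {C : ι → Set X} {d : ι → ι → X → ZMod 2}
    (hc : Coc C d S) : Triv C d S := by
  obtain ⟨n, ⟨e⟩⟩ := Finite.exists_equiv_fin ι
  exact (triv_reindex e.symm).1 (h n _ _ (coc_reindex hc e.symm))

theorem H1Rel.triv [Finite ι] {S T : Set X} (h : H1Rel S T) {C : ι → Set X}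
    {d : ι → ι → X → ZMod 2} (hc : Coc C d S) (ht : Triv C d T) : Triv C d S := by
  obtain ⟨n, ⟨e⟩⟩ := Finite.exists_equiv_fin ι
  exact (triv_reindex e.symm).1 (h n _ _ (coc_reindex hc e.symm) ((triv_reindex e.symm).2 ht))

theorem lc_comp {B : Type*} {f : X → B} {s : Set X} (h : LC f s) {g : Y → X} {t : Set Y}
    (hg : ContinuousOn g t) (hm : MapsTo g t s) : LC (fun y => f (g y)) t :=
  fun y hy => ((hg y hy).tendsto_nhdsWithin hm).eventually (h _ (hm hy))

theorem coc_comp {C : ι → Set X} {d : ι → ι → X → A} {S : Set X} (h : Coc C d S) {g : Y → X}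
    (hg : Continuous g) {T : Set Y} (hm : MapsTo g T S) :
    Coc (fun i => g ⁻¹' C i) (fun i j y => d i j (g y)) T where
  closed i := (h.closed i).preimage hg
  cov y hy := by
    obtain ⟨i, hi⟩ := mem_iUnion.1 (h.cov (hm hy))
    exact mem_iUnion.2 ⟨i, hi⟩
  lc i j := lc_comp (h.lc i j) hg.continuousOn fun y hy => ⟨hy.1, hm hy.2⟩
  coc i j k y hi hj hk hy := h.coc i j k _ hi hj hk (hm hy)

theorem triv_comp {C : ι → Set X} {d : ι → ι → X → A} {S : Set X} (h : Triv C d S) {g : Y → X}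
    {T : Set Y} (hg : ContinuousOn g T) (hm : MapsTo g T S) :
    Triv (fun i => g ⁻¹' C i) (fun i j y => d i j (g y)) T := by
  obtain ⟨χ, h1, h2⟩ := h
  exact ⟨fun i y => χ i (g y), fun i => lc_comp (h1 i) (hg.mono inter_subset_right)
    fun y hy => ⟨hy.1, hm hy.2⟩, fun i j y hi hj hy => h2 i j _ hi hj (hm hy)⟩

/-- push forward along a section -/
theorem triv_of_section {C : ι → Set X} {d : ι → ι → X → A} {g : Y → X} {T : Set Y}
    (h : Triv (fun i => g ⁻¹' C i) (fun i j y => d i j (g y)) T) {s : X → Y} {S : Set X}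
    (hs : ContinuousOn s S) (hm : MapsTo s S T) (e : ∀ x ∈ S, g (s x) = x) : Triv C d S := by
  obtain ⟨χ, h1, h2⟩ := h
  refine ⟨fun i x => χ i (s x), fun i => lc_comp (h1 i) (hs.mono inter_subset_right)
    fun x hx => ⟨by rw [mem_preimage, e x hx.2]; exact hx.1, hm hx.2⟩, fun i j x hi hj hx => ?_⟩
  have := h2 i j (s x) (by rw [mem_preimage, e x hx]; exact hi)
    (by rw [mem_preimage, e x hx]; exact hj) (hm hx)
  simpa [e x hx] using this

end Reindex

variable {E : Type*} [NormedAddCommGroup E] [NormedSpace ℝ E]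
  {S dS : Set E} {I : Type*} [PartialOrder I] {dim : I → ℕ} {K : I → Set E}

theorem exists_vertex (C : Cplx S I dim K) (i : I) : ∃ v, dim v = 0 ∧ v ≤ i := by
  induction hd : dim i using Nat.strong_induction_on generalizing i with
  | _ n ih =>
    by_cases h0 : dim i = 0
    · exact ⟨i, h0, le_rfl⟩
    · obtain ⟨a, ha⟩ := C.isBall i
      have : Nonempty (Fin (dim i)) := ⟨⟨0, by omega⟩⟩
      have m1 : (fun _ => 1 : Fin (dim i) → ℝ) ∈ sph (dim i) := by simp [sph, pi_norm_const]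
      have : a.f (fun _ => 1) ∈ ⋃ j ∈ {j | j < i}, K j := ha ▸ ⟨_, m1, rfl⟩
      obtain ⟨j, hj, -⟩ := mem_iUnion₂.1 this
      obtain ⟨v, hv, hvj⟩ := ih _ (hd ▸ C.mono _ _ hj) j rfl
      exact ⟨v, hv, hvj.trans (le_of_lt hj)⟩

/-- `ψ` is constant on the vertices of `i` -/
def Cst {A : Type*} (dim : I → ℕ) (ψ : I → A) (i : I) : Prop :=
  ∀ v w, dim v = 0 → dim w = 0 → v ≤ i → w ≤ i → ψ v = ψ w

theorem cst_union [Finite I] (C : Cplx S I dim K) {A : Type*} {ψ : I → A} {J : Set I}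
    (hc : IsPreconnected (⋃ i ∈ J, K i)) (h : ∀ i ∈ J, Cst dim ψ i) {i j v w : I} (hi : i ∈ J)
    (hj : j ∈ J) (hv : dim v = 0) (hw : dim w = 0) (vi : v ≤ i) (wj : w ≤ j) : ψ v = ψ w := by
  by_contra hn
  let P : I → Prop := fun g => ∀ u, dim u = 0 → u ≤ g → ψ u = ψ v
  obtain ⟨y, -, hA, hB⟩ := isPreconnected_closed_iff.1 hc
    (⋃ g ∈ {g | g ∈ J ∧ P g}, K g) (⋃ g ∈ {g | g ∈ J ∧ ¬ P g}, K g)
    ((toFinite _).isClosed_biUnion fun i _ => C.isClosed i)
    ((toFinite _).isClosed_biUnion fun i _ => C.isClosed i)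
    (fun y hy => by
      obtain ⟨g, hg, hyg⟩ := mem_iUnion₂.1 hy
      by_cases cg : P g
      · exact Or.inl (mem_biUnion (show g ∈ {g | g ∈ J ∧ P g} from ⟨hg, cg⟩) hyg)
      · exact Or.inr (mem_biUnion (show g ∈ {g | g ∈ J ∧ ¬ P g} from ⟨hg, cg⟩) hyg))
    ((C.isBall i).nonempty.mono (subset_inter (subset_biUnion_of_mem hi)
      (subset_biUnion_of_mem (u := K) (show i ∈ {g | g ∈ J ∧ P g} from
        ⟨hi, fun u hu ui => h i hi u v hu hv ui vi⟩))))
    ((C.isBall j).nonempty.mono (subset_inter (subset_biUnion_of_mem hj)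
      (subset_biUnion_of_mem (u := K) (show j ∈ {g | g ∈ J ∧ ¬ P g} from
        ⟨hj, fun a => hn (a w hw wj).symm⟩))))
  obtain ⟨g, ⟨-, pg⟩, hg⟩ := mem_iUnion₂.1 hA
  obtain ⟨g', ⟨jg', pg'⟩, hg'⟩ := mem_iUnion₂.1 hB
  obtain ⟨m, m1, m2, -⟩ := C.mem_inter hg hg'
  obtain ⟨u, hu, um⟩ := exists_vertex C m
  exact pg' fun u' hu' a => (h g' jg' u' u hu' hu a (um.trans m2)).trans (pg u hu (um.trans m1))

theorem SC.cst [Finite I] (h : SC S dS I dim K) {A : Type*} {ψ : I → A} {i : I}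
    (he : ∀ e, dim e = 1 → e ≤ i → Cst dim ψ e) : Cst dim ψ i := by
  intro v w hv hw vi wi
  have h2 := h.le2 i
  by_cases d0 : dim i = 0
  · rw [eq_of_le h.cx vi (by omega), eq_of_le h.cx wi (by omega)]
  by_cases d1 : dim i = 1
  · exact he i d1 le_rfl v w hv hw vi wi
  have d2 : dim i = 2 := by omega
  have ec := ec_face h.cx d2
  have hU : ⋃ g ∈ {g | dim g = 1 ∧ g < i}, K g = ⋃ j ∈ {j | j < i}, K j := by
    refine Subset.antisymm (biUnion_subset_biUnion_left fun g hg => hg.2) fun x hx => ?_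
    obtain ⟨e, de, s, hxe⟩ := ec.cov x hx
    exact mem_biUnion (show e ∈ {g | dim g = 1 ∧ g < i} from ⟨de, (sub_face_iff h.cx).1 s⟩) hxe
  have up : ∀ u, dim u = 0 → u ≤ i → ∃ e, (dim e = 1 ∧ e < i) ∧ u ≤ e := by
    intro u hu ui
    obtain ⟨a, b, -, hab⟩ := ec.two_edges h.cx hu
      ((sub_face_iff h.cx).2 (lt_of_le h.cx.mono ui (by omega)))
    obtain ⟨d, h1, h3⟩ := (hab a).2 (Or.inl rfl)
    exact ⟨a, ⟨d, (sub_face_iff h.cx).1 h3⟩, h1.le⟩
  obtain ⟨a, ha, va⟩ := up v hv vi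
  obtain ⟨b, hb, wb⟩ := up w hw wi
  exact cst_union h.cx (J := {g | dim g = 1 ∧ g < i}) (hU ▸ ec.circ.isPreconnected)
    (fun g hg => he g hg.1 hg.2.le) ha hb hv hw va wb

theorem zadd (a : ZMod 2) : a + a = 0 := by revert a; decide

theorem zsub (a b : ZMod 2) : a - b = a + b := by revert a b; decide

theorem zcases (a : ZMod 2) : a = 0 ∨ a = 1 := by revert a; decide

theorem zeq {a b : ZMod 2} (h : a + b = 0) : a = b := by revert a b; decide

theorem inc_vertex (C : Cplx S I dim K) {e : I} (he : dim e = 1) (g : I) :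
    (g < e → inc dim g e = 1) ∧ (¬ g < e → inc dim g e = 0) :=
  ⟨fun hg => by
    have := C.mono _ _ hg
    have : dim g = 0 := by omega
    simp [inc, hg, he, this], fun hg => by simp [inc, hg]⟩

open Classical in
/-- a vertex of the carrier -/
noncomputable def vx (dim : I → ℕ) (K : I → Set E) (i : I) (x : E) : I :=
  if h : ∃ v, dim v = 0 ∧ ∃ m, Opn K m x ∧ v ≤ m then h.choose else i

theorem vx_spec (C : Cplx S I dim K) (i : I) {m : I} {x : E} (hm : Opn K m x) :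
    dim (vx dim K i x) = 0 ∧ vx dim K i x ≤ m ∧ ∀ j, vx dim K j x = vx dim K i x := by
  obtain ⟨v, hv, hvm⟩ := exists_vertex C m
  have h : ∃ v, dim v = 0 ∧ ∃ m, Opn K m x ∧ v ≤ m := ⟨v, hv, m, hm, hvm⟩
  simp only [vx, dif_pos h]
  obtain ⟨h1, m', h2, h3⟩ := h.choose_spec
  exact ⟨h1, C.disj _ _ _ h2 hm ▸ h3, fun _ => trivial⟩

/-- the locally constant cocycle of a family of potentials -/
noncomputable def dd (dim : I → ℕ) (K : I → Set E) (φ : I → I → ZMod 2) (i j : I) (x : E) :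
    ZMod 2 := φ i (vx dim K i x) - φ j (vx dim K j x)

theorem SC.lc_vx [Finite I] (h : SC S dS I dim K) {ψ : I → ZMod 2} {T : Set E} (hT : T ⊆ S)
    (i : I) (hψ : ∀ m y, y ∈ T → Opn K m y → Cst dim ψ m) : LC (fun x => ψ (vx dim K i x)) T := by
  intro x hx
  obtain ⟨O, hO, hxO, hnear⟩ := exists_near h.cx x
  obtain ⟨m, hm⟩ := exists_carrier h.cx (hT hx)
  filter_upwards [mem_nhdsWithin_of_mem_nhds (hO.mem_nhds hxO), self_mem_nhdsWithin] with y hyO hy
  obtain ⟨m', hm'⟩ := exists_carrier h.cx (hT hy)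
  obtain ⟨a1, a2, -⟩ := vx_spec h.cx i hm
  obtain ⟨b1, b2, -⟩ := vx_spec h.cx i hm'
  exact hψ m' y hy hm' _ _ b1 a1 b2 (a2.trans (h.cx.opn_le hm (hnear m' y hyO hm'.1)))

theorem sub_all (C : Cplx S I dim K) : Sub K S := fun i _ _ _ => C.sub i

variable [Fintype I]

/-- coboundary of a vertex function -/
noncomputable def cob (dim : I → ℕ) (ψ : I → ZMod 2) (e : I) : ZMod 2 := ∑ v, inc dim v e * ψ v

theorem cob_eq (C : Cplx S I dim K) {e v w : I} (he : dim e = 1) (hv : v < e) (hw : w < e)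
    (hne : v ≠ w) (ψ : I → ZMod 2) : cob dim ψ e = ψ v + ψ w := by
  obtain ⟨a, b, -, hab⟩ := two_vertices C he
  rw [cob, sum_two hne, (inc_vertex C he v).1 hv, (inc_vertex C he w).1 hw, one_mul, one_mul]
  intro g h1 h2
  rw [(inc_vertex C he g).2, zero_mul]
  intro hg
  rcases (hab g).1 hg with rfl | rfl <;> rcases (hab v).1 hv with rfl | rfl <;>
    rcases (hab w).1 hw with rfl | rfl <;> contradiction

theorem cst_of_cob (C : Cplx S I dim K) {e : I} (he : dim e = 1) {φ ψ : I → ZMod 2}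
    (h : cob dim φ e = cob dim ψ e) : Cst dim (fun v => φ v - ψ v) e := by
  intro v w hv hw ve we
  by_cases hne : v = w
  · rw [hne]
  · have l1 := lt_of_le C.mono ve (by omega)
    have l2 := lt_of_le C.mono we (by omega)
    rw [cob_eq C he l1 l2 hne, cob_eq C he l1 l2 hne] at h
    refine zeq ?_
    simp only [zsub]
    calc φ v + ψ v + (φ w + ψ w) = φ v + φ w + (ψ v + ψ w) := by ring
      _ = 0 := by rw [h, zadd]

/-- `κ` is exact on the edges in `T` -/
def Ex (dim : I → ℕ) (K : I → Set E) (κ : I → ZMod 2) (T : Set E) : Prop :=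
  ∃ ψ, ∀ e, dim e = 1 → K e ⊆ T → κ e = cob dim ψ e

/-- `κ` is a cocycle -/
def Cl (dim : I → ℕ) (κ : I → ZMod 2) : Prop := ∀ f, dim f = 2 → ∑ e, inc dim e f * κ e = 0

/-- cycles on an edge circle -/
theorem EC.cycle (C : Cplx S I dim K) {Γ : Set E} (hΓ : EC dim K Γ) {z : I → ZMod 2}
    (hs : ∀ e, ¬ (dim e = 1 ∧ K e ⊆ Γ) → z e = 0) (hz : ∀ v, ∑ e, z e * inc dim v e = 0) :
    (∀ e, z e = 0) ∨ ∀ e, dim e = 1 → K e ⊆ Γ → z e = 1 := by
  by_cases h0 : ∀ e, z e = 0
  · exact Or.inl h0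
  push Not at h0
  obtain ⟨e₀, h₀⟩ := h0
  have d₀ : dim e₀ = 1 ∧ K e₀ ⊆ Γ := by by_contra a; exact h₀ (hs _ a)
  refine Or.inr fun e de se => hΓ.minimal C (Z := fun e => z e = 1) (fun e _ a => ?_)
    (fun v e hv he hve a => ?_) d₀.1 ((zcases _).resolve_left h₀) de se
  · by_contra b; rw [hs e fun c => b c.2] at a; exact zero_ne_one a
  · by_contra hn
    push Not at hn
    have h1 := hz v
    rw [Finset.sum_eq_single e, a, (inc_vertex C he v).1 hve] at h1
    · simp at h1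
    · intro e' _ hne
      rcases zcases (z e') with b | b
      · rw [b, zero_mul]
      · have d' : dim e' = 1 := by
          by_contra c; rw [hs e' fun x => c x.1] at b; exact zero_ne_one b
        rw [(inc_vertex C d' v).2 fun c => hne (hn e' d' c b), mul_zero]
    · simp

/-- exactness on an edge circle -/
theorem EC.ex (C : Cplx S I dim K) {Γ : Set E} (hΓ : EC dim K Γ) {κ : I → ZMod 2}
    (h : ∑ e, ind {e | dim e = 1 ∧ K e ⊆ Γ} e * κ e = 0) : Ex dim K κ Γ := by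
  obtain ⟨ψ, hψ⟩ := exact_of_kills (fun e v => inc dim v e) (fun e => dim e = 1 ∧ K e ⊆ Γ) κ
    fun z hs hz => by
      rcases hΓ.cycle C hs hz with a | a
      · simp [a]
      · rw [← h]
        refine Finset.sum_congr rfl fun e _ => ?_
        by_cases b : dim e = 1 ∧ K e ⊆ Γ
        · simp [ind, b, a e b.1 b.2]
        · rw [hs e b]; simp only [ind, mem_ofPred_eq, b, if_false]
  exact ⟨ψ, fun e de se => hψ e ⟨de, se⟩⟩

theorem SC.ex_cell (h : SC S dS I dim K) {κ : I → ZMod 2} (hκ : Cl dim κ) (i : I) :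
    ∃ φ, ∀ e, dim e = 1 → e ≤ i → κ e = cob dim φ e := by
  obtain ⟨f, hf, hif⟩ := h.pure i
  obtain ⟨φ, hφ⟩ := (ec_face h.cx hf).ex h.cx (κ := κ) (by
    rw [← hκ f hf]
    refine Finset.sum_congr rfl fun e _ => ?_
    congr 1
    have h1 : K e ⊆ ⋃ j ∈ {j | j < f}, K j ↔ e < f := sub_face_iff h.cx
    have h2 : (2 = dim e + 1) ↔ dim e = 1 := by omega
    have h3 : e ∈ {e | dim e = 1 ∧ K e ⊆ ⋃ j ∈ {j | j < f}, K j} ↔ e < f ∧ dim f = dim e + 1 := by
      rw [hf, h2, ← h1]; exact and_comm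
    unfold ind inc
    by_cases h4 : e < f ∧ dim f = dim e + 1
    · rw [if_pos h4, if_pos (h3.2 h4)]
    · rw [if_neg h4, if_neg (mt h3.1 h4)])
  exact ⟨φ, fun e de he => hφ e de
    ((sub_face_iff h.cx).2 (lt_of_le h.cx.mono (he.trans hif) (by omega)))⟩

/-- potentials on all cells -/
def Pot (dim : I → ℕ) (κ : I → ZMod 2) (φ : I → I → ZMod 2) : Prop :=
  ∀ i e, dim e = 1 → e ≤ i → κ e = cob dim (φ i) e

theorem SC.exists_pot (h : SC S dS I dim K) {κ : I → ZMod 2} (hκ : Cl dim κ) :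
    ∃ φ, Pot dim κ φ := by
  choose φ hφ using h.ex_cell hκ
  exact ⟨φ, hφ⟩

theorem SC.coc (h : SC S dS I dim K) {κ : I → ZMod 2} {φ : I → I → ZMod 2} (hφ : Pot dim κ φ) :
    Coc K (dd dim K φ) S where
  closed := h.cx.isClosed
  cov x hx := mem_iUnion.2 (h.cx.cover x hx)
  lc i j := by
    refine (h.lc_vx (ψ := fun v => φ i v - φ j v) inter_subset_right i
      fun m y hy hm => h.cst fun e de em => cst_of_cob h.cx de ?_).congr fun x hx => ?_
    · rw [← hφ i e de (em.trans (h.cx.opn_le hm hy.1.1)),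
        ← hφ j e de (em.trans (h.cx.opn_le hm hy.1.2))]
    · obtain ⟨m, hm⟩ := exists_carrier h.cx hx.2
      rw [dd, (vx_spec h.cx i hm).2.2 j]
  coc i j k x _ _ _ _ := by simp [dd]

theorem SC.triv_iff (h : SC S dS I dim K) {κ : I → ZMod 2} {φ : I → I → ZMod 2}
    (hφ : Pot dim κ φ) {T : Set E} (hT : T ⊆ S) (hs : Sub K T) :
    Triv K (dd dim K φ) T ↔ Ex dim K κ T := by
  have C := h.cx
  constructor
  · rintro ⟨χ, h1, h2⟩
    choose p hp using fun i => (C.isBall i).nonempty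
    refine ⟨fun v => φ v v - χ v (p v), fun e de se => ?_⟩
    obtain ⟨v, w, hne, hvw⟩ := two_vertices C de
    have lv := (hvw v).2 (Or.inl rfl)
    have lw := (hvw w).2 (Or.inr rfl)
    have key : ∀ u, u < e → φ u u - χ u (p u) = φ e u - χ e (p v) := by
      intro u hu
      have du : dim u = 0 := by have := C.mono _ _ hu; omega
      have hpe := C.subset hu.le (hp u)
      have a := h2 u e (p u) (hp u) hpe (se hpe)
      obtain ⟨b1, b2, b3⟩ := vx_spec C u (opn_vertex C du (hp u))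
      rw [dd, b3 e, eq_of_le C b2 (by omega)] at a
      have b : χ e (p u) = χ e (p v) := (h1 e).eq_of_preconnected
        (by rw [inter_eq_left.2 se]; exact (C.isBall e).isPreconnected) ⟨hpe, se hpe⟩
        ⟨C.subset lv.le (hp v), se (C.subset lv.le (hp v))⟩
      rw [← b]
      linear_combination -a
    rw [hφ e e de le_rfl, cob_eq C de lv lw hne, cob_eq C de lv lw hne, key v lv, key w lw]
    linear_combination zadd (χ e (p v))
  · rintro ⟨ψ, hψ⟩
    refine ⟨fun i x => φ i (vx dim K i x) - ψ (vx dim K i x), fun i => ?_,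
      fun i j x _ _ hx => ?_⟩
    · refine h.lc_vx (ψ := fun v => φ i v - ψ v) (inter_subset_right.trans hT) i
        fun m y hy hm => h.cst fun e de em => cst_of_cob C de ?_
      rw [← hφ i e de (em.trans (C.opn_le hm hy.1)),
        ← hψ e de ((C.subset em).trans (hs m y hm hy.2))]
    · obtain ⟨m, hm⟩ := exists_carrier C (hT hx)
      beta_reduce
      rw [dd, (vx_spec C i hm).2.2 j]
      ring

theorem EC.is_cycle (C : Cplx S I dim K) {Γ : Set E} (hΓ : EC dim K Γ) (v : I) :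
    ∑ e, ind {e | dim e = 1 ∧ K e ⊆ Γ} e * inc dim v e = 0 := by
  by_cases h0 : dim v = 0 ∧ K v ⊆ Γ
  · obtain ⟨a, b, hne, hab⟩ := hΓ.two_edges C h0.1 h0.2
    have one : ∀ g, g = a ∨ g = b → ind {e | dim e = 1 ∧ K e ⊆ Γ} g * inc dim v g = 1 :=
      fun g hg => by
        obtain ⟨d, h1, h2⟩ := (hab g).2 hg
        simp [ind, (inc_vertex C d v).1 h1, d, h2]
    rw [sum_two hne, one a (Or.inl rfl), one b (Or.inr rfl)]
    · rfl
    · intro g ha hb
      by_cases h1 : dim g = 1 ∧ K g ⊆ Γ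
      · rw [(inc_vertex C h1.1 v).2 fun h2 => ((hab g).1 ⟨h1.1, h2, h1.2⟩).elim ha hb, mul_zero]
      · simp only [ind, mem_ofPred_eq, h1, if_false, zero_mul]
  · refine Finset.sum_eq_zero fun g _ => ?_
    by_cases h1 : dim g = 1 ∧ K g ⊆ Γ
    · rw [(inc_vertex C h1.1 v).2 fun h2 => h0 ⟨by have := C.mono _ _ h2; omega,
        (C.subset h2.le).trans h1.2⟩, mul_zero]
    · simp only [ind, mem_ofPred_eq, h1, if_false, zero_mul]

/-- an edge circle bounds, or is detected by a cocycle -/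
theorem SC.bounds_or (h : SC S dS I dim K) {Γ : Set E} :
    (∃ Y ⊆ {f | dim f = 2}, Bds dim K Y Γ) ∨
      ∃ κ, Cl dim κ ∧ ∑ e, ind {e | dim e = 1 ∧ K e ⊆ Γ} e * κ e ≠ 0 := by
  classical
  let W : Submodule (ZMod 2) (I → ZMod 2) :=
    Submodule.span (ZMod 2) ((fun f e => inc dim e f) '' {f | dim f = 2})
  by_cases hz : ind {e | dim e = 1 ∧ K e ⊆ Γ} ∈ W
  · left
    obtain ⟨w, hw, e⟩ := (Finsupp.mem_span_image_iff_linearCombination _).1 hz
    refine ⟨{f | w f = 1}, fun f hf => hw (Finsupp.mem_support_iff.2 (by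
      rw [show w f = 1 from hf]; exact one_ne_zero)), fun g dg => ?_⟩
    have h1 := congrFun e g
    rw [Finsupp.linearCombination_apply, Finsupp.sum_fintype _ _ (by simp), Finset.sum_apply] at h1
    have h2 := h.sum_ind dg {f | w f = 1}
    have h3 : ∀ f, ind {f | w f = 1} f = w f := fun f => by
      rcases zcases (w f) with a | a <;> simp [ind, a]
    simp only [h3] at h2
    simp only [Pi.smul_apply, smul_eq_mul, mul_comm] at h1
    rw [h2] at h1
    simp only [ind, mem_ofPred_eq, dg, true_and] at h1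
    by_cases a : bdE {f | w f = 1} g <;> by_cases b : K g ⊆ Γ <;> simp [a, b] at h1 ⊢
  · right
    obtain ⟨κ, h1, h2⟩ := exists_separating W hz
    exact ⟨κ, fun f hf => by
      simpa only [mul_comm] using h1 _ (Submodule.subset_span ⟨f, hf, rfl⟩),
      by simpa only [mul_comm] using h2⟩

theorem EC.sum_ex (C : Cplx S I dim K) {Γ : Set E} (hΓ : EC dim K Γ) {κ : I → ZMod 2}
    (h : Ex dim K κ Γ) : ∑ e, ind {e | dim e = 1 ∧ K e ⊆ Γ} e * κ e = 0 := by
  obtain ⟨ψ, hψ⟩ := h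
  have h1 : ∀ e, ind {e | dim e = 1 ∧ K e ⊆ Γ} e * κ e =
      ind {e | dim e = 1 ∧ K e ⊆ Γ} e * ∑ v, inc dim v e * ψ v := fun e => by
    by_cases a : dim e = 1 ∧ K e ⊆ Γ
    · rw [hψ e a.1 a.2]; rfl
    · simp only [ind, mem_ofPred_eq, a, if_false, zero_mul]
  simp only [h1]
  rw [sum_mul_cob (fun e v => inc dim v e)]
  simp only [hΓ.is_cycle C, zero_mul, Finset.sum_const_zero]

omit [NormedAddCommGroup E] [NormedSpace ℝ E] in
theorem Ex.mono {κ : I → ZMod 2} {T T' : Set E} (h : Ex dim K κ T) (hT : T' ⊆ T) :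
    Ex dim K κ T' := h.imp fun _ hψ e de se => hψ e de (se.trans hT)

/-- if all edge cocycles are exact then all edge circles bound -/
theorem SC.bounds (h : SC S dS I dim K) (h1 : ∀ κ, Cl dim κ → Ex dim K κ S) {Γ : Set E}
    (hΓ : EC dim K Γ) (hs : Γ ⊆ S) : ∃ Y ⊆ {f | dim f = 2}, Bds dim K Y Γ :=
  h.bounds_or.resolve_right fun ⟨κ, a, b⟩ => b (hΓ.sum_ex h.cx ((h1 κ a).mono hs))

theorem SC.ex_of_H1 (h : SC S dS I dim K) (h1 : H1 S) (κ : I → ZMod 2) (hκ : Cl dim κ) :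
    Ex dim K κ S := by
  obtain ⟨φ, hφ⟩ := h.exists_pot hκ
  exact (h.triv_iff hφ Subset.rfl (sub_all h.cx)).1 (h1.triv (h.coc hφ))

end Crest.Agent.X212.Srf12
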