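import Crest.Agent.X212.Srf12.Defs
import Crest.Agent.R105.Iod1_690

/-!
# X212 / SURF (helper12): consequences of invariance of domain for surfaces
-/

set_option autoImplicit false

open Set Metric Topology Module

namespace Crest.Agent.X212.Srf12

open Crest.Agent.R096 Crest.Agent.R096.Ce_537 Crest.Agent.R105.Iod1_690

variable {E : Type*} [NormedAddCommGroup E] [NormedSpace ℝ E]

/-- no continuous injection of an open set of `ℝ^k` into `ℝ^m`, `m < k` -/
theorem no_inj {k m : ℕ} (h : m < k) {U : Set (Fin k → ℝ)} (hU : IsOpen U) (hne : U.Nonempty)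
    {g : (Fin k → ℝ) → (Fin m → ℝ)} (hg : ContinuousOn g U) (hi : InjOn g U) : False := by
  let ι : (Fin m → ℝ) → (Fin k → ℝ) := fun y i => if hi : (i : ℕ) < m then y ⟨i, hi⟩ else 0
  have hc : Continuous ι := by
    refine continuous_pi fun i => ?_
    by_cases hi : (i : ℕ) < m
    · simp only [ι, hi, dif_pos]; exact continuous_apply _
    · simp only [ι, hi, dif_neg, not_false_eq_true]; exact continuous_const
  have hinj : Function.Injective ι := by
    intro y y' e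
    funext j
    have := congrFun e ⟨j, j.2.trans h⟩
    simpa [ι, j.2] using this
  have ho : IsOpen ((fun x => ι (g x)) '' U) :=
    isOpen_image_fd rfl hU (hc.comp_continuousOn hg) fun x hx y hy e => hi hx hy (hinj e)
  obtain ⟨x, hx⟩ := hne
  obtain ⟨r, hr, hb⟩ := Metric.isOpen_iff.1 ho _ ⟨x, hx, rfl⟩
  have hm : ι (g x) + Pi.single (⟨m, h⟩ : Fin k) (r / 2) ∈ ball (ι (g x)) r := by
    rw [mem_ball, dist_eq_norm, add_sub_cancel_left, Pi.norm_single, Real.norm_eq_abs,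
      abs_of_pos (by positivity)]
    linarith
  obtain ⟨y, -, hy⟩ := hb hm
  have := congrFun hy ⟨m, h⟩
  simp [ι] at this
  linarith

section

variable {F : Type*} [NormedAddCommGroup F] [NormedSpace ℝ F] [FiniteDimensional ℝ F]

theorem disc_of_inj (h2 : finrank ℝ F = 2) {D Γ : Set E} (hD : IsBall 2 D Γ) {W : Set F}
    (hW : IsOpen W) {g : F → E} (hg : ContinuousOn g W) (hi : InjOn g W) (hm : MapsTo g W D)
    {w : F} (hw : w ∈ W) : g w ∉ Γ ∧ g '' W ∈ 𝓝[D] (g w) := by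
  obtain ⟨a, rfl⟩ := hD
  have ho : IsOpen ((fun x => a.g (g x)) '' W) :=
    isOpen_image_fd (by rw [h2]; simp) hW (a.pg.1.comp hg hm) fun x hx y hy e =>
      hi hx hy (a.symm.injOn (hm hx) (hm hy) e)
  have hsub : (fun x => a.g (g x)) '' W ⊆ cube 2 := by
    rintro _ ⟨x, hx, rfl⟩; exact a.mg (hm hx)
  constructor
  · rintro ⟨s, hs, e⟩
    have h1 : a.g (g w) = s := by rw [← e, a.li s (sph_subset_cube hs)]
    have h3 : s ∈ interior (cube 2) := interior_maximal hsub ho ⟨w, hw, h1⟩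
    rw [cube, interior_closedBall _ one_ne_zero] at h3
    have h4 : ‖s‖ = 1 := by simpa using hs
    have h5 : ‖s‖ < 1 := by simpa using h3
    linarith
  · have h1 : a.g ⁻¹' ((fun x => a.g (g x)) '' W) ∈ 𝓝[D] (g w) :=
      (a.pg.1 _ (hm hw)).preimage_mem_nhdsWithin (ho.mem_nhds ⟨w, hw, rfl⟩)
    filter_upwards [h1, self_mem_nhdsWithin] with y hy hyD
    obtain ⟨x, hx, e⟩ := hy
    exact ⟨x, hx, a.symm.injOn (hm hx) hyD e⟩

theorem exists_open_of_nhdsWithin {X : Type*} [TopologicalSpace X] {S D : Set X} {x : X}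
    (h : D ∈ 𝓝[S] x) : ∃ O, IsOpen O ∧ x ∈ O ∧ O ∩ S ⊆ D := mem_nhdsWithin.1 h

theorem nhdsWithin_eq_of {X : Type*} [TopologicalSpace X] {S D : Set X} {x : X}
    (hs : D ⊆ S) (h : D ∈ 𝓝[S] x) : 𝓝[D] x = 𝓝[S] x := by
  rw [← nhdsWithin_inter_of_mem' h, inter_eq_right.2 hs]

/-- an embedded open piece of plane consists of interior points, and is open in the surface -/
theorem Srf.of_inj (h2 : finrank ℝ F = 2) {S dS : Set E} (hS : Srf S dS) {W : Set F}
    (hW : IsOpen W) {g : F → E} (hg : ContinuousOn g W) (hi : InjOn g W) (hm : MapsTo g W S)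
    {w : F} (hw : w ∈ W) : g w ∉ dS ∧ g '' W ∈ 𝓝[S] (g w) := by
  obtain ⟨D, Γ, hD, hDS, hn, hiff⟩ := hS.loc _ (hm hw)
  obtain ⟨O, hO, hwO, hOD⟩ := exists_open_of_nhdsWithin hn
  have hW' : IsOpen (W ∩ g ⁻¹' O) := hg.isOpen_inter_preimage hW hO
  obtain ⟨h1, h3⟩ := disc_of_inj h2 hD hW' (hg.mono inter_subset_left)
    (hi.mono inter_subset_left) (fun x hx => hOD ⟨hx.2, hm hx.1⟩) ⟨hw, hwO⟩
  refine ⟨fun h => h1 (hiff.1 h), ?_⟩
  rw [nhdsWithin_eq_of hDS hn] at h3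
  exact Filter.mem_of_superset h3 (image_mono inter_subset_left)

end

theorem finrank_two : finrank ℝ (Fin 2 → ℝ) = 2 := by simp

theorem not_mem_bd_of {S D Γ D' Γ' : Set E} {x : E} (hD : IsBall 2 D Γ) (hD' : IsBall 2 D' Γ')
    (hs : D' ⊆ S) (hn : D ∈ 𝓝[S] x) (hx : x ∈ D') (hx' : x ∉ Γ') : x ∉ Γ := by
  obtain ⟨a, ha⟩ := hD'
  have h1 : x ∈ a.f '' ball 0 1 := by rw [← Cb_609.diff_eq_image a ha]; exact ⟨hx, hx'⟩
  obtain ⟨w, hw, rfl⟩ := h1
  obtain ⟨O, hO, hwO, hOD⟩ := exists_open_of_nhdsWithin hn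
  have hc : ContinuousOn a.f (ball 0 1) := a.pf.1.mono ball_subset_closedBall
  have hW' : IsOpen (ball 0 1 ∩ a.f ⁻¹' O) := hc.isOpen_inter_preimage isOpen_ball hO
  exact (disc_of_inj finrank_two hD hW' (hc.mono inter_subset_left)
    (a.injOn.mono (inter_subset_left.trans ball_subset_closedBall))
    (fun y hy => hOD ⟨hy.2, hs (a.mf (ball_subset_closedBall hy.1))⟩) ⟨hw, hwO⟩).1

/-- the boundary can be read in any disc neighbourhood -/
theorem Srf.bd_iff {S dS D Γ : Set E} (hS : Srf S dS) (hD : IsBall 2 D Γ) (hs : D ⊆ S) {x : E}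
    (hx : x ∈ D) (hn : D ∈ 𝓝[S] x) : x ∈ dS ↔ x ∈ Γ := by
  obtain ⟨D', Γ', hD', hs', hn', hiff⟩ := hS.loc x (hs hx)
  have hx' : x ∈ D' := mem_of_mem_nhdsWithin (hs hx) hn'
  rw [hiff]
  constructor
  · intro h; by_contra h'; exact not_mem_bd_of hD' hD hs hn' hx h' h
  · intro h; by_contra h'; exact not_mem_bd_of hD hD' hs' hn hx' h' h

/-- interior points of a disc in a surface -/
theorem Srf.disc_int {S dS D Γ : Set E} (hS : Srf S dS) (hD : IsBall 2 D Γ) (hs : D ⊆ S) {x : E}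
    (hx : x ∈ D) (hx' : x ∉ Γ) : x ∉ dS ∧ D ∈ 𝓝[S] x := by
  obtain ⟨a, ha⟩ := hD
  have h1 : x ∈ a.f '' ball 0 1 := by rw [← Cb_609.diff_eq_image a ha]; exact ⟨hx, hx'⟩
  obtain ⟨w, hw, rfl⟩ := h1
  obtain ⟨h1, h2⟩ := hS.of_inj finrank_two isOpen_ball (a.pf.1.mono ball_subset_closedBall)
    (a.injOn.mono ball_subset_closedBall) (fun y hy => hs (a.mf (ball_subset_closedBall hy))) hw
  refine ⟨h1, Filter.mem_of_superset h2 ?_⟩
  rintro _ ⟨y, hy, rfl⟩
  exact a.mf (ball_subset_closedBall hy)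

/-- a neighbourhood stays a neighbourhood of the nearby points -/
theorem eventually_nhdsWithin_nhds {X : Type*} [TopologicalSpace X] {S D : Set X} {x : X}
    (h : D ∈ 𝓝[S] x) : ∀ᶠ y in 𝓝 x, D ∈ 𝓝[S] y := by
  obtain ⟨O, hO, hx, hOD⟩ := exists_open_of_nhdsWithin h
  filter_upwards [hO.mem_nhds hx] with y hy
  exact mem_nhdsWithin.2 ⟨O, hO, hy, hOD⟩

/-- near a point of the surface the boundary is the rim of the disc -/
theorem Srf.bd_near {S dS D Γ : Set E} (hS : Srf S dS) (hD : IsBall 2 D Γ) (hs : D ⊆ S) {x : E}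
    (hn : D ∈ 𝓝[S] x) : ∀ᶠ y in 𝓝 x, y ∈ dS ↔ y ∈ Γ := by
  filter_upwards [eventually_nhdsWithin_nhds hn] with y hy
  constructor
  · intro h
    exact (hS.bd_iff hD hs (mem_of_mem_nhdsWithin (hS.sub h) hy) hy).1 h
  · intro h
    exact (hS.bd_iff hD hs (hD.subset h) hy).2 h

theorem Srf.isClosed_bd {S dS : Set E} (hS : Srf S dS) : IsClosed dS := by
  rw [← closure_subset_iff_isClosed]
  intro x hx
  have hxS : x ∈ S := closure_minimal hS.sub hS.cpt.isClosed hx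
  obtain ⟨D, Γ, hD, hs, hn, hiff⟩ := hS.loc x hxS
  rw [hiff, ← hD.isClosed_bdry.closure_eq, mem_closure_iff_frequently]
  rw [mem_closure_iff_frequently] at hx
  exact (hx.and_eventually (hS.bd_near hD hs hn)).mono fun y hy => hy.2.1 hy.1

/-- a disc is a surface -/
theorem srf_of_isBall {D Γ : Set E} (h : IsBall 2 D Γ) : Srf D Γ :=
  ⟨h.isCompact, h.subset, fun _ _ => ⟨D, Γ, h, Subset.rfl, self_mem_nhdsWithin, Iff.rfl⟩⟩

/-- the boundary of a surface is determined by the surface -/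
theorem Srf.bd_unique {S dS dS' : Set E} (h : Srf S dS) (h' : Srf S dS') : dS = dS' := by
  ext x
  by_cases hx : x ∈ S
  · obtain ⟨D, Γ, hD, hs, hn, hiff⟩ := h.loc x hx
    rw [hiff, h'.bd_iff hD hs (mem_of_mem_nhdsWithin hx hn) hn]
  · exact ⟨fun a => (hx (h.sub a)).elim, fun a => (hx (h'.sub a)).elim⟩

/-- transport along a PL equivalence -/
theorem Srf.map {F : Type*} [NormedAddCommGroup F] [NormedSpace ℝ F] {S dS : Set E} {T : Set F}
    (h : Srf S dS) (e : PLEquiv S T) : Srf T (e.f '' dS) := by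
  refine ⟨e.image_eq ▸ h.cpt.image_of_continuousOn e.pf.1, ?_, ?_⟩
  · rintro _ ⟨x, hx, rfl⟩; exact e.mf (h.sub hx)
  · intro y hy
    obtain ⟨D, Γ, hD, hs, hn, hiff⟩ := h.loc (e.g y) (e.mg hy)
    refine ⟨e.f '' D, e.f '' Γ, hD.map (e.restrImage hs), ?_, ?_, ?_⟩
    · rintro _ ⟨x, hx, rfl⟩; exact e.mf (hs hx)
    · have h1 : e.g ⁻¹' D ∈ 𝓝[T] y :=
        (e.pg.1 y hy).tendsto_nhdsWithin e.mg hn
      filter_upwards [h1, self_mem_nhdsWithin] with z hz hzT
      exact ⟨e.g z, hz, e.ri z hzT⟩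
    · constructor
      · rintro ⟨x, hx, rfl⟩
        rw [e.li x (h.sub hx)] at hiff
        exact ⟨x, hiff.1 hx, rfl⟩
      · rintro ⟨x, hx, rfl⟩
        rw [e.li x (hs (hD.subset hx))] at hiff
        exact ⟨x, hiff.2 hx, rfl⟩

end Crest.Agent.X212.Srf12
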