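import Crest.Agent.X212.Srf12.Rec
import Crest.Agent.X212.Lev33.St2

/-!
# X212 / SURF (helper12): `SphStmt`
-/

namespace Crest.Agent.X212.Srf12

/-- **(SPH)** -/
theorem sphStmt : Lev33.SphStmt := fun _ h hc h1 => h.sph hc h1

end Crest.Agent.X212.Srf12
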